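import Vale.Agent.P300.ASM.Group

/-!
# P300, block [LAB]: the good labels

`G n ⊆ F n`: the orbit of the base point under `Γ = ⟨c₁, c₂, c₃⟩`.  `t₀''`, `t₀'` act trivially on `G n`,
`cᵢ ^ a` fixes a point of `G n` iff `m ∣ a`, the projections map `G n'` to `G n`, `⟨c₂⁻¹, c₃⁻¹⟩` acts transitively,
and the number of points is unbounded.
-/

namespace Vale.Agent.P300.ASM

open SemidirectProduct

/-- the good labels -/
def Good (n : ℕ) : Set (F n) := Set.range fun γ : H951.Gam => mk n (inl γ)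

/-- the base label -/
noncomputable def base (n : ℕ) : F n := mk n 1

theorem mk_inl_mem (n : ℕ) (γ : H951.Gam) : mk n (inl γ) ∈ Good n := ⟨γ, rfl⟩

theorem base_mem (n : ℕ) : base n ∈ Good n := by
  refine ⟨1, ?_⟩
  show mk n (inl 1) = mk n 1
  rw [map_one]

theorem inl_smul_mem {n : ℕ} {s : F n} (hs : s ∈ Good n) (γ : H951.Gam) : (inl γ : E) • s ∈ Good n := by
  obtain ⟨γ', rfl⟩ := hs
  exact ⟨γ * γ', by simp only [smul_mk, map_mul]⟩

/-- the stabiliser of a good label is `K n` -/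
theorem smul_eq_self_iff {n : ℕ} {s : F n} (hs : s ∈ Good n) (x : E) : x • s = s ↔ x ∈ K n := by
  obtain ⟨γ, rfl⟩ := hs
  simp only [smul_mk]
  rw [eq_comm, mk_eq_iff]
  constructor
  · intro h
    have h1 := K_norm n γ h
    have e : (inl γ : E) * ((inl γ)⁻¹ * (x * inl γ)) * (inl γ)⁻¹ = x := by group
    rwa [e] at h1
  · intro h
    have h1 := K_norm n γ⁻¹ h
    rw [map_inv, inv_inv] at h1
    rwa [← mul_assoc]

theorem t0''_smul {n : ℕ} {s : F n} (hs : s ∈ Good n) : rE.T0 • s = s :=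
  (smul_eq_self_iff hs _).2 (t0''_mem n)

theorem t0'_smul {n : ℕ} {s : F n} (hs : s ∈ Good n) : H708.arrE.t0' • s = s :=
  (smul_eq_self_iff hs _).2 (t0'_mem n)

theorem c1_zpow_smul {n : ℕ} {s : F n} (hs : s ∈ Good n) (a : ℤ) : rE.c1 ^ a • s = s ↔ (m : ℤ) ∣ a :=
  (smul_eq_self_iff hs _).trans (c1_zpow_mem n a)
theorem c2_zpow_smul {n : ℕ} {s : F n} (hs : s ∈ Good n) (a : ℤ) : rE.c2 ^ a • s = s ↔ (m : ℤ) ∣ a :=
  (smul_eq_self_iff hs _).trans (c2_zpow_mem n a)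
theorem c3_zpow_smul {n : ℕ} {s : F n} (hs : s ∈ Good n) (a : ℤ) : rE.c3 ^ a • s = s ↔ (m : ℤ) ∣ a :=
  (smul_eq_self_iff hs _).trans (c3_zpow_mem n a)
theorem c4_zpow_smul {n : ℕ} {s : F n} (hs : s ∈ Good n) (a : ℤ) : H708.arrE.c4 ^ a • s = s ↔ (m : ℤ) ∣ a :=
  (smul_eq_self_iff hs _).trans (c4_zpow_mem n a)

theorem c1_smul_mem {n : ℕ} {s : F n} (hs : s ∈ Good n) : rE.c1 • s ∈ Good n := inl_smul_mem hs _
theorem c2_smul_mem {n : ℕ} {s : F n} (hs : s ∈ Good n) : rE.c2 • s ∈ Good n := inl_smul_mem hs _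
theorem c3_smul_mem {n : ℕ} {s : F n} (hs : s ∈ Good n) : rE.c3 • s ∈ Good n := inl_smul_mem hs _

/-- `c₁ c₂` acts trivially on the good labels -/
theorem c12_smul {n : ℕ} {s : F n} (hs : s ∈ Good n) : (rE.c1 * rE.c2) • s = s := by
  refine (smul_eq_self_iff hs _).2 ?_
  have e : rE.c1 * rE.c2 = H708.arrE.t0'' * H708.arrE.t0'⁻¹ := by
    show H708.arrE.c1 * H708.arrE.c2 = H708.arrE.T0 * ((H708.arrE.c1 * H708.arrE.c2)⁻¹ * H708.arrE.T0)⁻¹
    group
  rw [e]
  exact mul_mem (t0''_mem n) (inv_mem (t0'_mem n))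

theorem c1_smul {n : ℕ} {s : F n} (hs : s ∈ Good n) : rE.c1 • s = rE.c2⁻¹ • s := by
  have h1 : (rE.c1 * rE.c2) • (rE.c2⁻¹ • s) = rE.c2⁻¹ • s := by
    refine c12_smul ?_
    have := inl_smul_mem hs (H951.c2)⁻¹
    rwa [map_inv] at this
  rw [smul_smul, mul_assoc, mul_inv_cancel, mul_one] at h1
  exact h1

/-- the projections -/
theorem pj_mem {n n' : ℕ} (h : n ≤ n') {s : F n'} (hs : s ∈ Good n') : pj h s ∈ Good n := by
  obtain ⟨γ, rfl⟩ := hs
  exact ⟨γ, by rw [pj_mk]⟩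

theorem pj_base {n n' : ℕ} (h : n ≤ n') : pj h (base n') = base n := rfl

/-! ### the number of good labels -/

theorem good_eq (n : ℕ) : Good n = Set.range (H708.orb (K n) (inl : H951.Gam →* E)) := rfl

theorem card_good (n : ℕ) : Nat.card (Good n) = ((K n).comap (inl : H951.Gam →* E)).index :=
  H708.card_orb

theorem good_finite (n : ℕ) : (Good n).Finite := Set.toFinite _

theorem exists_finset_good (N : ℕ) : ∃ n, ∃ T : Finset (Good n), N ≤ T.card := by
  classical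
  obtain ⟨n, hn⟩ := unbounded N
  have : Fintype (Good n) := Fintype.ofFinite _
  refine ⟨n, Finset.univ, ?_⟩
  rw [Finset.card_univ, ← Nat.card_eq_fintype_card, card_good]
  exact hn

/-! ### the permutations -/

/-- the permutation of the good labels defined by `inl γ` -/
noncomputable def gperm (n : ℕ) : H951.Gam →* Equiv.Perm (Good n) where
  toFun γ :=
    { toFun := fun s => ⟨(inl γ : E) • (s : F n), inl_smul_mem s.2 γ⟩
      invFun := fun s => ⟨(inl γ⁻¹ : E) • (s : F n), inl_smul_mem s.2 γ⁻¹⟩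
      left_inv := fun s => Subtype.ext (by simp only [map_inv, inv_smul_smul])
      right_inv := fun s => Subtype.ext (by simp only [map_inv, smul_inv_smul]) }
  map_one' := by
    ext s
    simp
  map_mul' a b := by
    ext s
    simp [mul_smul]

theorem gperm_apply (n : ℕ) (γ : H951.Gam) (s : Good n) : ((gperm n γ s : Good n) : F n) = (inl γ : E) • (s : F n) := rfl

/-- `b = false`: the monodromy `c₂⁻¹ = wa 6`, `b = true`: the monodromy `c₃⁻¹ = wb 15` -/
noncomputable def cp (n : ℕ) (b : Bool) : Equiv.Perm (Good n) :=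
  match b with
  | false => gperm n (H951.c2)⁻¹
  | true => gperm n (H951.c3)⁻¹

theorem cp_false (n : ℕ) (s : Good n) : ((cp n false s : Good n) : F n) = (Spec.toA rE).wa 6 • (s : F n) := by
  show ((gperm n (H951.c2)⁻¹ s : Good n) : F n) = _
  rw [gperm_apply, map_inv]
  rfl

theorem cp_true (n : ℕ) (s : Good n) : ((cp n true s : Good n) : F n) = (Spec.toA rE).wb 15 • (s : F n) := by
  show ((gperm n (H951.c3)⁻¹ s : Good n) : F n) = _
  rw [gperm_apply, map_inv]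
  rfl

theorem cp_zpow_false (n : ℕ) (k : ℤ) (s : Good n) : (((cp n false ^ k) s : Good n) : F n) = rE.c2 ^ (-k) • (s : F n) := by
  have h : cp n false ^ k = gperm n ((H951.c2) ^ (-k)) := by
    show gperm n (H951.c2)⁻¹ ^ k = _
    rw [← map_zpow, inv_zpow']
  rw [h, gperm_apply, map_zpow]
  rfl

theorem cp_zpow_true (n : ℕ) (k : ℤ) (s : Good n) : (((cp n true ^ k) s : Good n) : F n) = rE.c3 ^ (-k) • (s : F n) := by
  have h : cp n true ^ k = gperm n ((H951.c3) ^ (-k)) := by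
    show gperm n (H951.c3)⁻¹ ^ k = _
    rw [← map_zpow, inv_zpow']
  rw [h, gperm_apply, map_zpow]
  rfl

/-- `c ^ k` has a fixed point iff `m ∣ k` -/
theorem cp_zpow_eq_iff (n : ℕ) (b : Bool) (k : ℤ) (s : Good n) : (cp n b ^ k) s = s ↔ (m : ℤ) ∣ k := by
  rw [← Subtype.coe_inj]
  cases b
  · rw [cp_zpow_false, c2_zpow_smul s.2, dvd_neg]
  · rw [cp_zpow_true, c3_zpow_smul s.2, dvd_neg]

theorem cp_pow_m (n : ℕ) (b : Bool) (s : Good n) : (cp n b ^ m) s = s := by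
  have := (cp_zpow_eq_iff n b (m : ℤ) s).2 dvd_rfl
  rwa [zpow_natCast] at this

/-- the projection of the good labels -/
noncomputable def gpj {n n' : ℕ} (h : n ≤ n') (s : Good n') : Good n := ⟨pj h (s : F n'), pj_mem h s.2⟩

@[simp] theorem gpj_coe {n n' : ℕ} (h : n ≤ n') (s : Good n') : ((gpj h s : Good n) : F n) = pj h (s : F n') := rfl

theorem gpj_gperm {n n' : ℕ} (h : n ≤ n') (γ : H951.Gam) (s : Good n') : gpj h (gperm n' γ s) = gperm n γ (gpj h s) :=
  Subtype.ext (map_smul (pj h) (inl γ : E) (s : F n'))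

theorem gpj_cp {n n' : ℕ} (h : n ≤ n') (b : Bool) (s : Good n') : gpj h (cp n' b s) = cp n b (gpj h s) := by
  cases b
  · exact gpj_gperm h _ s
  · exact gpj_gperm h _ s

/-- the base label -/
noncomputable def gbase (n : ℕ) : Good n := ⟨base n, base_mem n⟩

/-- `⟨c₂⁻¹, c₃⁻¹⟩` acts transitively on the good labels -/
theorem cp_transitive (n : ℕ) (s : Good n) : ∃ g ∈ Subgroup.closure (Set.range (cp n)), g (gbase n) = s := by
  have h2 : gperm n (H951.c2) ∈ Subgroup.closure (Set.range (cp n)) := by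
    have : cp n false ∈ Subgroup.closure (Set.range (cp n)) := Subgroup.subset_closure ⟨false, rfl⟩
    have h := inv_mem this
    have e : (cp n false)⁻¹ = gperm n (H951.c2) := by
      show (gperm n (H951.c2)⁻¹)⁻¹ = _
      rw [map_inv, inv_inv]
    rwa [e] at h
  have h3 : gperm n (H951.c3) ∈ Subgroup.closure (Set.range (cp n)) := by
    have : cp n true ∈ Subgroup.closure (Set.range (cp n)) := Subgroup.subset_closure ⟨true, rfl⟩
    have h := inv_mem this
    have e : (cp n true)⁻¹ = gperm n (H951.c3) := by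
      show (gperm n (H951.c3)⁻¹)⁻¹ = _
      rw [map_inv, inv_inv]
    rwa [e] at h
  have h1 : gperm n (H951.c1) ∈ Subgroup.closure (Set.range (cp n)) := by
    have e : gperm n (H951.c1) = cp n false := by
      ext s
      rw [gperm_apply]
      show rE.c1 • (s : F n) = (gperm n (H951.c2)⁻¹ s : Good n)
      rw [c1_smul s.2, gperm_apply, map_inv]
      rfl
    rw [e]
    exact Subgroup.subset_closure ⟨false, rfl⟩
  have hall : ∀ γ : H951.Gam, gperm n γ ∈ Subgroup.closure (Set.range (cp n)) := by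
    intro γ
    have hle : (⊤ : Subgroup H951.Gam) ≤ (Subgroup.closure (Set.range (cp n))).comap (gperm n) := by
      rw [← H951.closure_c, Subgroup.closure_le]
      rintro y (rfl | rfl | rfl)
      · exact h1
      · exact h2
      · exact h3
    exact hle (Subgroup.mem_top γ)
  obtain ⟨_, γ, rfl⟩ := s
  refine ⟨gperm n γ, hall γ, Subtype.ext ?_⟩
  rw [gperm_apply]
  show (inl γ : E) • mk n 1 = mk n (inl γ)
  rw [smul_mk, mul_one]

/-- the tower input of `H839.end_of_curves`: arbitrarily many labels in one orbit -/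
theorem exists_labels (N : ℕ) : ∃ n, ∃ T : Finset (Good n), N ≤ T.card ∧
    ∀ t ∈ T, ∃ g ∈ Subgroup.closure (Set.range (cp n)), g (gbase n) = t := by
  obtain ⟨n, T, hT⟩ := exists_finset_good N
  exact ⟨n, T, hT, fun t _ => cp_transitive n t⟩

/-! ### the orders of the good labels -/

/-- a pair of elements which acts on the good labels through `cᵢ` and `K n` -/
theorem pord_unique {n : ℕ} {ν : Fin 16} {s : F n} {p' q' : ℕ}
    (h : H708.POrd (H708.arrE.wa ν) (H708.arrE.wb ν) s p' q') : p n ν s = p' ∧ q n ν s = q' :=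
  (pord n ν s).unique h

/-- chart 5: unramified -/
theorem pord5 {n : ℕ} {s : F n} (hs : s ∈ Good n) : H708.POrd (H708.arrE.wa 5) (H708.arrE.wb 5) s 1 1 := by
  refine ⟨one_pos, one_pos, fun i j => ?_⟩
  refine iff_of_true ?_ ⟨one_dvd _, one_dvd _⟩
  refine (smul_eq_self_iff hs _).2 ?_
  have e : H708.arrE.wb 5 = H708.arrE.t0' := by
    show H708.arrE.c2⁻¹ * H708.arrE.c1⁻¹ * H708.arrE.T0 = (H708.arrE.c1 * H708.arrE.c2)⁻¹ * H708.arrE.T0
    group
  rw [e]
  exact mul_mem (zpow_mem (t0''_mem n) i) (zpow_mem (t0'_mem n) j)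

/-- chart 6: `u` has order `m`, `v` is unramified -/
theorem pord6 {n : ℕ} {s : F n} (hs : s ∈ Good n) : H708.POrd (H708.arrE.wa 6) (H708.arrE.wb 6) s m 1 := by
  refine ⟨m_pos, one_pos, fun i j => ?_⟩
  rw [smul_eq_self_iff hs]
  have e : H708.arrE.wb 6 = H708.arrE.t0' := by
    show H708.arrE.c2⁻¹ * H708.arrE.c1⁻¹ * H708.arrE.T0 = (H708.arrE.c1 * H708.arrE.c2)⁻¹ * H708.arrE.T0
    group
  have e2 : H708.arrE.wa 6 ^ i = H708.arrE.c2 ^ (-i) := by
    show (H708.arrE.c2⁻¹) ^ i = _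
    rw [inv_zpow']
  rw [e, e2]
  constructor
  · intro h
    have h1 : H708.arrE.c2 ^ (-i) ∈ K n := (Subgroup.mul_mem_cancel_right _ (zpow_mem (t0'_mem n) j)).1 h
    exact ⟨dvd_neg.1 ((c2_zpow_mem n _).1 h1), one_dvd _⟩
  · rintro ⟨h, -⟩
    exact mul_mem ((c2_zpow_mem n _).2 (dvd_neg.2 h)) (zpow_mem (t0'_mem n) j)

/-- chart 9: `u` has order `m`, `v` is unramified -/
theorem pord9 {n : ℕ} {s : F n} (hs : s ∈ Good n) : H708.POrd (H708.arrE.wa 9) (H708.arrE.wb 9) s m 1 := by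
  refine ⟨m_pos, one_pos, fun i j => ?_⟩
  rw [smul_eq_self_iff hs]
  have e : H708.arrE.wb 9 = H708.arrE.t0' := by
    show H708.arrE.c2⁻¹ * H708.arrE.c1⁻¹ * H708.arrE.T0 = (H708.arrE.c1 * H708.arrE.c2)⁻¹ * H708.arrE.T0
    group
  have e2 : H708.arrE.wa 9 ^ i = H708.arrE.c1 ^ (-i) := by
    show (H708.arrE.c1⁻¹) ^ i = _
    rw [inv_zpow']
  rw [e, e2]
  constructor
  · intro h
    have h1 : H708.arrE.c1 ^ (-i) ∈ K n := (Subgroup.mul_mem_cancel_right _ (zpow_mem (t0'_mem n) j)).1 h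
    exact ⟨dvd_neg.1 ((c1_zpow_mem n _).1 h1), one_dvd _⟩
  · rintro ⟨h, -⟩
    exact mul_mem ((c1_zpow_mem n _).2 (dvd_neg.2 h)) (zpow_mem (t0'_mem n) j)

/-- the charts 0 and 15: `u` is unramified, `v` has order `m` -/
theorem pord_c3 {n : ℕ} {s : F n} (hs : s ∈ Good n) : H708.POrd H708.arrE.T0 H708.arrE.c3⁻¹ s 1 m := by
  refine ⟨one_pos, m_pos, fun i j => ?_⟩
  rw [smul_eq_self_iff hs, inv_zpow']
  constructor
  · intro h
    have h1 : H708.arrE.c3 ^ (-j) ∈ K n := (Subgroup.mul_mem_cancel_left _ (zpow_mem (t0''_mem n) i)).1 h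
    exact ⟨one_dvd _, dvd_neg.1 ((c3_zpow_mem n _).1 h1)⟩
  · rintro ⟨-, h⟩
    exact mul_mem (zpow_mem (t0''_mem n) i) ((c3_zpow_mem n _).2 (dvd_neg.2 h))

theorem pord0 {n : ℕ} {s : F n} (hs : s ∈ Good n) : H708.POrd (H708.arrE.wa 0) (H708.arrE.wb 0) s 1 m := pord_c3 hs

theorem pord15 {n : ℕ} {s : F n} (hs : s ∈ Good n) : H708.POrd (H708.arrE.wa 15) (H708.arrE.wb 15) s 1 m := pord_c3 hs

/-- chart 1: `u` is unramified, `v` (the loop `c₄⁻¹`) has order `m` -/
theorem pord1 {n : ℕ} {s : F n} (hs : s ∈ Good n) : H708.POrd (H708.arrE.wa 1) (H708.arrE.wb 1) s 1 m := by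
  refine ⟨one_pos, m_pos, fun i j => ?_⟩
  rw [smul_eq_self_iff hs]
  have e2 : H708.arrE.wb 1 ^ j = H708.arrE.c4 ^ (-j) := by
    show (H708.arrE.c1 * H708.arrE.c2 * H708.arrE.c3) ^ j = ((H708.arrE.c1 * H708.arrE.c2 * H708.arrE.c3)⁻¹) ^ (-j)
    rw [inv_zpow', neg_neg]
  rw [e2]
  constructor
  · intro h
    have h1 : H708.arrE.c4 ^ (-j) ∈ K n := (Subgroup.mul_mem_cancel_left _ (zpow_mem (t0''_mem n) i)).1 h
    exact ⟨one_dvd _, dvd_neg.1 ((c4_zpow_mem n _).1 h1)⟩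
  · rintro ⟨-, h⟩
    exact mul_mem (zpow_mem (t0''_mem n) i) ((c4_zpow_mem n _).2 (dvd_neg.2 h))

/-- the orders of the good labels in the charts 5, 6, 15 (and 0, 1, 9) -/
theorem p5 {n : ℕ} {s : F n} (hs : s ∈ Good n) : p n 5 s = 1 := (pord_unique (pord5 hs)).1
theorem q5 {n : ℕ} {s : F n} (hs : s ∈ Good n) : q n 5 s = 1 := (pord_unique (pord5 hs)).2
theorem p6 {n : ℕ} {s : F n} (hs : s ∈ Good n) : p n 6 s = m := (pord_unique (pord6 hs)).1
theorem q6 {n : ℕ} {s : F n} (hs : s ∈ Good n) : q n 6 s = 1 := (pord_unique (pord6 hs)).2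
theorem p15 {n : ℕ} {s : F n} (hs : s ∈ Good n) : p n 15 s = 1 := (pord_unique (pord15 hs)).1
theorem q15 {n : ℕ} {s : F n} (hs : s ∈ Good n) : q n 15 s = m := (pord_unique (pord15 hs)).2
theorem p9 {n : ℕ} {s : F n} (hs : s ∈ Good n) : p n 9 s = m := (pord_unique (pord9 hs)).1
theorem q9 {n : ℕ} {s : F n} (hs : s ∈ Good n) : q n 9 s = 1 := (pord_unique (pord9 hs)).2
theorem p0_good {n : ℕ} {s : F n} (hs : s ∈ Good n) : p n 0 s = 1 := (pord_unique (pord0 hs)).1
theorem q0_good {n : ℕ} {s : F n} (hs : s ∈ Good n) : q n 0 s = m := (pord_unique (pord0 hs)).2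
theorem p1_good {n : ℕ} {s : F n} (hs : s ∈ Good n) : p n 1 s = 1 := (pord_unique (pord1 hs)).1
theorem q1_good {n : ℕ} {s : F n} (hs : s ∈ Good n) : q n 1 s = m := (pord_unique (pord1 hs)).2

end Vale.Agent.P300.ASM
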