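import Vale.Agent.P300.H959.LA
import Vale.Agent.P300.H863.Gsla2

/-! # P300 / H959 : the Golod-Shafarevich estimate for the monodromy group of `M_{0,5}`

`alg`: `gsla` of helper863 applied to the action of `V` (free on `T₀, T₁`) on `Γ` (free on `c₁, c₂, c₃`). -/

namespace Vale.Agent.P300.H959

open Vale.Agent.P300.GS Submodule

theorem vact_eq (F : Type*) [Field F] (v : VV) (a : A F) : vact F act v a = tt F (act v) a := by
  induction a using MonoidAlgebra.induction_on with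
  | of g => rw [vact_of]; exact (tt_u F (act v) g).symm
  | add x y hx hy => rw [map_add, map_add, hx, hy]
  | smul c x hx => rw [map_smul, map_smul, hx]

theorem laHyp (F : Type*) [Field F] : LAHyp F act pr LAN.dd := by
  intro a ha
  refine ⟨ww a, ww_mem ha, fun v n => ?_⟩
  rw [vact_eq]
  exact lemmaA a v n

theorem pr_surj : Function.Surjective pr := by
  intro g
  induction g using FreeGroup.induction_on with
  | C1 => exact ⟨1, map_one _⟩
  | of i =>
    fin_cases i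
    · exact ⟨c 0, pr_c0⟩
    · exact ⟨c 2, pr_c2⟩
  | inv_of i _ =>
    fin_cases i
    · exact ⟨(c 0)⁻¹, by rw [map_inv, pr_c0]; rfl⟩
    · exact ⟨(c 2)⁻¹, by rw [map_inv, pr_c2]; rfl⟩
  | mul x y hx hy =>
    obtain ⟨a, rfl⟩ := hx
    obtain ⟨b, rfl⟩ := hy
    exact ⟨a * b, map_mul _ _ _⟩

/-- **The Golod-Shafarevich estimate** for the action of `V` on `Γ`, uniformly in the prime. -/
theorem alg : ∃ n₀ : ℕ, ∀ n ≥ n₀, ∀ m : ℕ, ∃ q₀ : ℕ, ∀ (l : ℕ) [Fact l.Prime] (K : Finset Gm) (q : Gm → ℕ),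
    K.card ≤ m → (∀ g ∈ K, q₀ ≤ q g ∧ ∃ a, q g = l ^ a) →
    ∀ D : ℕ, ∃ N, D < Module.finrank (ZMod l) (A (ZMod l) ⧸
      (JS (ZMod l) (Rel (ZMod l) act dl n K q) ⊔ augF (ZMod l) Gm N)) := by
  have h2 : (1 : ℝ) < Fintype.card (Fin 2) * LAN.s ^ 10 := by
    have := LAN.half_lt
    rw [Fintype.card_fin]
    push_cast
    linarith
  obtain ⟨n₀, h⟩ := gsla LAN.one_le_dd (pow_pos LAN.s_pos 10) LAN.pow_lt_one' LAN.summable_dd h2
  refine ⟨n₀, fun n hn m => ?_⟩
  obtain ⟨q₀, h⟩ := h n hn m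
  exact ⟨q₀, fun l _ K q hK hq D => h (ZMod l) l Gm VV act pr dl (finite_quot_freeGroup (ZMod l) (Fin 3))
    pr_surj pr_dl (laHyp (ZMod l)) K q hK hq D⟩

end Vale.Agent.P300.H959
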