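import Vale.Agent.P300.H959.Mono

/-! # P300 / H959 : the two filtrations of `k[Γ]` and the action of the monodromy -/

namespace Vale.Agent.P300.H959

variable (k : Type*) [Field k]

/-- the group algebra of `Γ` -/
abbrev A := MonoidAlgebra k Gm

/-- group elements -/
noncomputable abbrev u : Gm →* A k := MonoidAlgebra.of k Gm

/-- the algebra automorphism induced by a group automorphism -/
noncomputable def tt (φ : MulAut Gm) : A k →ₐ[k] A k := ((MonoidAlgebra.domCongr k k φ : A k ≃ₐ[k] A k) : A k →ₐ[k] A k)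

@[simp] theorem tt_u (φ : MulAut Gm) (g : Gm) : tt k φ (u k g) = u k (φ g) := by
  simp [tt, u, MonoidAlgebra.of_apply]

theorem tt_mul (φ ψ : MulAut Gm) (a : A k) : tt k (φ * ψ) a = tt k φ (tt k ψ a) := by
  induction a using MonoidAlgebra.induction_on with
  | of g => simp only [tt_u]; rfl
  | add a b h1 h2 => simp only [map_add, h1, h2]
  | smul r a h => simp only [map_smul, h]

theorem tt_one (a : A k) : tt k 1 a = a := by
  induction a using MonoidAlgebra.induction_on with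
  | of g => simp only [tt_u]; rfl
  | add a b h1 h2 => simp only [map_add, h1, h2]
  | smul r a h => simp only [map_smul, h]

theorem tt_inv (φ : MulAut Gm) (a : A k) : tt k φ (tt k φ⁻¹ a) = a := by
  rw [← tt_mul, mul_inv_cancel, tt_one]

theorem tt_inv' (φ : MulAut Gm) (a : A k) : tt k φ⁻¹ (tt k φ a) = a := by
  rw [← tt_mul, inv_mul_cancel, tt_one]

variable {k}

/-- `T - 1` on the whole algebra -/
theorem sub_mem_of_gen {S : ℕ → Set (A k)} (φ : MulAut Gm) (r : ℕ)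
    (h : ∀ i, u k (φ (c i)) - u k (c i) ∈ Fl k S r) (a : A k) : tt k φ a - a ∈ Fl k S r := by
  have key : ∀ g : Gm, u k (φ g) - u k g ∈ Fl k S r := by
    refine Gm_induction ?_ h ?_ ?_
    · rw [map_one, map_one, sub_self]; exact zero_mem _
    · intro g hg
      have : u k (φ g⁻¹) - u k g⁻¹ = -(u k (φ g)⁻¹ * (u k (φ g) - u k g) * u k g⁻¹) := by
        have e1 : u k (φ g)⁻¹ * u k (φ g) = 1 := by rw [← map_mul, inv_mul_cancel, map_one]
        have e2 : u k g * u k g⁻¹ = 1 := by rw [← map_mul, mul_inv_cancel, map_one]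
        rw [mul_sub, e1, sub_mul, one_mul, mul_assoc, e2, mul_one, map_inv]; abel
      rw [this]
      exact neg_mem (Fl_mul_right _ (Fl_mul_left _ hg))
    · intro g h' hg hh
      have : u k (φ (g * h')) - u k (g * h') = (u k (φ g) - u k g) * u k (φ h') + u k g * (u k (φ h') - u k h') := by
        rw [map_mul, map_mul, map_mul]; noncomm_ring
      rw [this]
      exact add_mem (Fl_mul_right _ hg) (Fl_mul_left _ hh)
  induction a using MonoidAlgebra.induction_on with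
  | of g => rw [tt_u]; exact key g
  | add a b h1 h2 =>
    have : tt k φ (a + b) - (a + b) = (tt k φ a - a) + (tt k φ b - b) := by rw [map_add]; abel
    rw [this]; exact add_mem h1 h2
  | smul r a h =>
    have : tt k φ (r • a) - r • a = r • (tt k φ a - a) := by rw [map_smul, smul_sub]
    rw [this]; exact Submodule.smul_mem _ _ h

/-- elements of augmentation zero -/
theorem mem_of_aug {S : ℕ → Set (A k)} (h : ∀ i, u k (c i) - 1 ∈ Fl k S 1) (g : Gm) : u k g - 1 ∈ Fl k S 1 := by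
  revert g
  refine Gm_induction ?_ h ?_ ?_
  · rw [map_one, sub_self]; exact zero_mem _
  · intro g hg; exact inv_mem_Fl _ hg
  · intro g h' hg hh; exact mul_mem_Fl _ hg hh

variable (k)

/-- generators of the first filtration: `cᵢ - 1` in degree one -/
def S1 (n : ℕ) : Set (A k) := {a | n = 1 ∧ ∃ i, a = u k (c i) - 1}

/-- generators of the second filtration: `c₁ - 1`, `c₃ - 1` in degree one, `δ - 1` in degree two -/
def S2 (n : ℕ) : Set (A k) := {a | (n = 1 ∧ (a = u k (c 0) - 1 ∨ a = u k (c 2) - 1)) ∨ (n = 2 ∧ a = u k dl - 1)}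

noncomputable abbrev F1 (n : ℕ) : Submodule k (A k) := Fl k (S1 k) n
noncomputable abbrev F2 (n : ℕ) : Submodule k (A k) := Fl k (S2 k) n

variable {k}

theorem F1_c (i : Fin 3) : u k (c i) - 1 ∈ F1 k 1 := Fl_gen ⟨rfl, i, rfl⟩
theorem F1_g (g : Gm) : u k g - 1 ∈ F1 k 1 := mem_of_aug F1_c g

theorem conj_sub_F1 (g h : Gm) : u k (g * h * g⁻¹) - u k h ∈ F1 k 2 := by
  have : u k (g * h * g⁻¹) - u k h = (u k (g * h * g⁻¹ * h⁻¹) - 1) * u k h := by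
    have e2 : u k h⁻¹ * u k h = 1 := by rw [← map_mul, inv_mul_cancel, map_one]
    rw [map_mul _ (g * h * g⁻¹), sub_mul, mul_assoc (u k (g * h * g⁻¹)), e2, mul_one, one_mul]
  rw [this]
  exact Fl_mul_right _ (comm_mem_Fl _ (F1_g g) (F1_g h))

/-- automorphisms which map the generators to conjugates -/
theorem F1_raise0 (φ : MulAut Gm) (h : ∀ i, ∃ g, φ (c i) = g * c i * g⁻¹) (a : A k) : tt k φ a - a ∈ F1 k 2 := by
  refine sub_mem_of_gen φ 2 (fun i => ?_) a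
  obtain ⟨g, hg⟩ := h i
  rw [hg]
  exact conj_sub_F1 g (c i)

theorem F1_raise (φ : MulAut Gm) (h : ∀ i, ∃ g, φ (c i) = g * c i * g⁻¹) {n : ℕ} {a : A k} (ha : a ∈ F1 k n) :
    tt k φ a - a ∈ F1 k (n + 1) := by
  refine raise_sub (tt k φ) 1 (fun a => Fl_mono (by norm_num) (F1_raise0 φ h a)) ?_ ha
  rintro n s ⟨rfl, i, rfl⟩
  exact F1_raise0 φ h _

theorem T0_conj (i : Fin 3) : ∃ g, T0 (c i) = g * c i * g⁻¹ := by
  fin_cases i
  · exact ⟨dl, T0_c0⟩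
  · exact ⟨dl, T0_c1⟩
  · exact ⟨1, by rw [one_mul, inv_one, mul_one]; exact T0_c2⟩

theorem T0s_conj (i : Fin 3) : ∃ g, T0⁻¹ (c i) = g * c i * g⁻¹ := by
  fin_cases i
  · exact ⟨dl⁻¹, by rw [inv_inv]; exact T0s_c0⟩
  · exact ⟨dl⁻¹, by rw [inv_inv]; exact T0s_c1⟩
  · exact ⟨1, by rw [one_mul, inv_one, mul_one]; exact T0s_c2⟩

theorem T1_conj (i : Fin 3) : ∃ g, T1 (c i) = g * c i * g⁻¹ := by
  fin_cases i
  · exact ⟨1, by rw [one_mul, inv_one, mul_one]; exact T1_c0⟩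
  · exact ⟨ep, T1_c1⟩
  · exact ⟨ep, T1_c2⟩

theorem T1s_conj (i : Fin 3) : ∃ g, T1⁻¹ (c i) = g * c i * g⁻¹ := by
  fin_cases i
  · exact ⟨1, by rw [one_mul, inv_one, mul_one]; exact T1s_c0⟩
  · exact ⟨ep⁻¹, by rw [inv_inv]; exact T1s_c1⟩
  · exact ⟨ep⁻¹, by rw [inv_inv]; exact T1s_c2⟩

/-! ## second filtration -/

/-- `X = c₁ - 1` -/
noncomputable abbrev XX (k : Type*) [Field k] : A k := u k (c 0) - 1
/-- `Y = c₃ - 1` -/
noncomputable abbrev YY (k : Type*) [Field k] : A k := u k (c 2) - 1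
/-- `Z = δ - 1` -/
noncomputable abbrev ZZ (k : Type*) [Field k] : A k := u k dl - 1

theorem F2_X : XX k ∈ F2 k 1 := Fl_gen (Or.inl ⟨rfl, Or.inl rfl⟩)
theorem F2_Y : YY k ∈ F2 k 1 := Fl_gen (Or.inl ⟨rfl, Or.inr rfl⟩)
theorem F2_Z : ZZ k ∈ F2 k 2 := Fl_gen (Or.inr ⟨rfl, rfl⟩)

theorem F2_X' : u k (c 0)⁻¹ - 1 ∈ F2 k 1 := inv_mem_Fl _ F2_X

theorem F2_X'' : u k (c 0)⁻¹ - 1 + XX k ∈ F2 k 2 := by
  have e : u k (c 0)⁻¹ * u k (c 0) = 1 := by rw [← map_mul, inv_mul_cancel, map_one]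
  have : u k (c 0)⁻¹ - 1 + XX k = -((u k (c 0)⁻¹ - 1) * XX k) := by
    have : (u k (c 0)⁻¹ - 1) * XX k = u k (c 0)⁻¹ * u k (c 0) - u k (c 0)⁻¹ - XX k := by noncomm_ring
    rw [this, e]; abel
  rw [this]
  exact neg_mem (Fl_mul F2_X' F2_X)

theorem c1_eq : c 1 = (c 0)⁻¹ * dl := by simp [dl]

theorem F2_c1'' : u k (c 1) - 1 + XX k ∈ F2 k 2 := by
  have : u k (c 1) - 1 + XX k = u k (c 0)⁻¹ * ZZ k + (u k (c 0)⁻¹ - 1 + XX k) := by
    rw [c1_eq, map_mul]; noncomm_ring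
  rw [this]
  exact add_mem (Fl_mul_left _ F2_Z) F2_X''

theorem F2_c1 : u k (c 1) - 1 ∈ F2 k 1 := by
  have : u k (c 1) - 1 = (u k (c 1) - 1 + XX k) - XX k := by abel
  rw [this]
  exact sub_mem (Fl_mono (by norm_num) F2_c1'') F2_X

theorem F2_g (g : Gm) : u k g - 1 ∈ F2 k 1 := by
  refine mem_of_aug (fun i => ?_) g
  fin_cases i
  · exact F2_X
  · exact F2_c1
  · exact F2_Y

theorem F2_ep : u k ep - 1 - (YY k - XX k) ∈ F2 k 2 := by
  have : u k ep - 1 - (YY k - XX k) = (u k (c 1) - 1) * YY k + (u k (c 1) - 1 + XX k) := by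
    rw [ep, map_mul]; noncomm_ring
  rw [this]
  exact add_mem (Fl_mul F2_c1 F2_Y) F2_c1''

theorem conj_sub_F2 (g h : Gm) : u k (g * h * g⁻¹) - u k h ∈ F2 k 2 := by
  have : u k (g * h * g⁻¹) - u k h = (u k (g * h * g⁻¹ * h⁻¹) - 1) * u k h := by
    have e2 : u k h⁻¹ * u k h = 1 := by rw [← map_mul, inv_mul_cancel, map_one]
    rw [map_mul _ (g * h * g⁻¹), sub_mul, mul_assoc (u k (g * h * g⁻¹)), e2, mul_one, one_mul]
  rw [this]
  exact Fl_mul_right _ (comm_mem_Fl _ (F2_g g) (F2_g h))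

/-- the commutator element `C = XY - YX` -/
noncomputable abbrev CC (k : Type*) [Field k] : A k := XX k * YY k - YY k * XX k

theorem F2_C : CC k ∈ F2 k 2 := sub_mem (Fl_mul F2_X F2_Y) (Fl_mul F2_Y F2_X)

theorem tt_X_T1 : tt k T1 (XX k) = XX k := by rw [map_sub, map_one, tt_u, T1_c0]
theorem tt_X_T1s : tt k T1⁻¹ (XX k) = XX k := by
  rw [map_sub, map_one, tt_u, show T1⁻¹ (c 0) = c 0 from T1s_c0]

theorem tt_Y_T1 : tt k T1 (YY k) - YY k ∈ F2 k 2 := by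
  have : tt k T1 (YY k) - YY k = u k (ep * c 2 * ep⁻¹) - u k (c 2) := by
    rw [map_sub, map_one, tt_u, T1_c2]; exact sub_sub_sub_cancel_right _ _ _
  rw [this]; exact conj_sub_F2 _ _

theorem tt_Y_T1s : tt k T1⁻¹ (YY k) - YY k ∈ F2 k 2 := by
  have : tt k T1⁻¹ (YY k) - YY k = u k (ep⁻¹ * c 2 * ep⁻¹⁻¹) - u k (c 2) := by
    rw [map_sub, map_one, tt_u, inv_inv]
    have : T1⁻¹ (c 2) = ep⁻¹ * c 2 * ep := T1s_c2
    rw [this]; exact sub_sub_sub_cancel_right _ _ _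
  rw [this]; exact conj_sub_F2 _ _

/-- `T₁ Z ≡ Z + C` modulo degree three -/
theorem tt_Z_T1 : tt k T1 (ZZ k) - ZZ k - CC k ∈ F2 k 3 := by
  set E := u k ep - 1 with hE
  set C1 := u k (c 1) - 1 with hC1
  have e1 : u k (c 1)⁻¹ * u k (c 1) = 1 := by rw [← map_mul, inv_mul_cancel, map_one]
  have e2 : u k ep * u k ep⁻¹ = 1 := by rw [← map_mul, mul_inv_cancel, map_one]
  have hK : u k ((c 1)⁻¹ * ep * (c 1) * ep⁻¹) - 1 = u k (c 1)⁻¹ * (E * C1 - C1 * E) * u k ep⁻¹ := by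
    have : E * C1 - C1 * E = u k ep * u k (c 1) - u k (c 1) * u k ep := by rw [hE, hC1]; noncomm_ring
    rw [this, mul_sub, sub_mul, ← mul_assoc (u k (c 1)⁻¹) (u k (c 1)), e1, one_mul, e2, map_mul, map_mul, map_mul,
      ← mul_assoc (u k (c 1)⁻¹) (u k ep)]
  have hEm : E ∈ F2 k 1 := F2_g _
  have hCm : C1 ∈ F2 k 1 := F2_g _
  have hEC : E * C1 - C1 * E ∈ F2 k 2 := sub_mem (Fl_mul hEm hCm) (Fl_mul hCm hEm)
  have h1 : E * C1 - C1 * E - CC k ∈ F2 k 3 := by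
    have : E * C1 - C1 * E - CC k = (E - (YY k - XX k)) * C1 + (YY k - XX k) * (C1 + XX k)
        - (C1 + XX k) * E + XX k * (E - (YY k - XX k)) := by noncomm_ring
    rw [this]
    have a1 : E - (YY k - XX k) ∈ F2 k 2 := F2_ep
    have a2 : C1 + XX k ∈ F2 k 2 := F2_c1''
    have a3 : YY k - XX k ∈ F2 k 1 := sub_mem F2_Y F2_X
    exact add_mem (sub_mem (add_mem (Fl_mul a1 hCm) (Fl_mul a3 a2)) (Fl_mul a2 hEm)) (Fl_mul F2_X a1)
  have h2 : u k ((c 1)⁻¹ * ep * (c 1) * ep⁻¹) - 1 - (E * C1 - C1 * E) ∈ F2 k 3 := by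
    rw [hK]
    set w := E * C1 - C1 * E
    have : u k (c 1)⁻¹ * w * u k ep⁻¹ - w = (u k (c 1)⁻¹ - 1) * (w * u k ep⁻¹) + w * (u k ep⁻¹ - 1) := by noncomm_ring
    rw [this]
    exact add_mem (Fl_mul' (F2_g _) (Fl_mul_right _ hEC) (by norm_num)) (Fl_mul' hEC (F2_g _) (by norm_num))
  have h3 : tt k T1 (ZZ k) - ZZ k = u k dl * (u k ((c 1)⁻¹ * ep * (c 1) * ep⁻¹) - 1) := by
    rw [map_sub, map_one, tt_u, T1_dl, map_mul]; noncomm_ring
  have h4 : u k ((c 1)⁻¹ * ep * (c 1) * ep⁻¹) - 1 ∈ F2 k 2 := by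
    have : u k ((c 1)⁻¹ * ep * (c 1) * ep⁻¹) - 1 = (u k ((c 1)⁻¹ * ep * (c 1) * ep⁻¹) - 1 - (E * C1 - C1 * E)) +
      (E * C1 - C1 * E) := by abel
    rw [this]; exact add_mem (Fl_mono (by norm_num) h2) hEC
  rw [h3]
  set κ := u k ((c 1)⁻¹ * ep * (c 1) * ep⁻¹) - 1
  have : u k dl * κ - CC k = ZZ k * κ + (κ - (E * C1 - C1 * E)) + (E * C1 - C1 * E - CC k) := by noncomm_ring
  rw [this]
  exact add_mem (add_mem (Fl_mul' F2_Z h4 (by norm_num)) h2) h1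

theorem tt_Z_T1' : tt k T1 (ZZ k) ∈ F2 k 2 := by
  have : tt k T1 (ZZ k) = (tt k T1 (ZZ k) - ZZ k - CC k) + ZZ k + CC k := by abel
  rw [this]
  exact add_mem (add_mem (Fl_mono (by norm_num) tt_Z_T1) F2_Z) F2_C

theorem tt_Z_T1s' : tt k T1⁻¹ (ZZ k) ∈ F2 k 2 := by
  have h3 : tt k T1⁻¹ (ZZ k) = u k dl * (u k ((c 1)⁻¹ * ep⁻¹ * (c 1) * ep) - 1) + ZZ k := by
    rw [map_sub, map_one, tt_u]
    have : T1⁻¹ dl = dl * ((c 1)⁻¹ * ep⁻¹ * (c 1) * ep) := T1s_dl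
    rw [this, map_mul]; noncomm_ring
  rw [h3]
  refine add_mem (Fl_mul_left _ ?_) F2_Z
  have : u k ((c 1)⁻¹ * ep⁻¹ * (c 1) * ep) - 1 = u k ((c 1)⁻¹ * ep⁻¹ * ((c 1)⁻¹)⁻¹ * (ep⁻¹)⁻¹) - 1 := by
    rw [inv_inv, inv_inv]
  rw [this]
  exact comm_mem_Fl _ (F2_g _) (F2_g _)

/-- `T₁` preserves the second filtration -/
theorem F2_T1 {n : ℕ} {a : A k} (ha : a ∈ F2 k n) : tt k T1 a ∈ F2 k n := by
  refine map_Fl (tt k T1) ?_ ha
  rintro n s (⟨rfl, rfl | rfl⟩ | ⟨rfl, rfl⟩)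
  · rw [show u k (c 0) - 1 = XX k from rfl, tt_X_T1]; exact F2_X
  · have : tt k T1 (u k (c 2) - 1) = (tt k T1 (YY k) - YY k) + YY k := by abel
    rw [this]; exact add_mem (Fl_mono (by norm_num) tt_Y_T1) F2_Y
  · exact tt_Z_T1'

theorem F2_T1s {n : ℕ} {a : A k} (ha : a ∈ F2 k n) : tt k T1⁻¹ a ∈ F2 k n := by
  refine map_Fl (tt k T1⁻¹) ?_ ha
  rintro n s (⟨rfl, rfl | rfl⟩ | ⟨rfl, rfl⟩)
  · rw [show u k (c 0) - 1 = XX k from rfl, tt_X_T1s]; exact F2_X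
  · have : tt k T1⁻¹ (u k (c 2) - 1) = (tt k T1⁻¹ (YY k) - YY k) + YY k := by abel
    rw [this]; exact add_mem (Fl_mono (by norm_num) tt_Y_T1s) F2_Y
  · exact tt_Z_T1s'

/-! ## `T₀` -/

/-- `P = ZX - XZ` -/
noncomputable abbrev PP (k : Type*) [Field k] : A k := ZZ k * XX k - XX k * ZZ k

theorem F2_P : PP k ∈ F2 k 3 := sub_mem (Fl_mul F2_Z F2_X) (Fl_mul' F2_X F2_Z (by norm_num))

theorem tt_T0_X : tt k T0 (XX k) - XX k = PP k * u k dl⁻¹ := by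
  have e : u k dl * u k dl⁻¹ = 1 := by rw [← map_mul, mul_inv_cancel, map_one]
  have h : tt k T0 (XX k) - XX k = u k dl * u k (c 0) * u k dl⁻¹ - u k (c 0) := by
    rw [map_sub, map_one, tt_u, T0_c0, map_mul, map_mul]; exact sub_sub_sub_cancel_right _ _ _
  have h2 : PP k = u k dl * u k (c 0) - u k (c 0) * u k dl := by noncomm_ring
  rw [h, h2, sub_mul, mul_assoc (u k (c 0)), e, mul_one]

theorem tt_T0_X_mem : tt k T0 (XX k) - XX k ∈ F2 k 3 := by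
  rw [tt_T0_X]; exact Fl_mul_right _ F2_P

theorem tt_T0_X_mod : tt k T0 (XX k) - XX k - PP k ∈ F2 k 5 := by
  rw [tt_T0_X]
  have : PP k * u k dl⁻¹ - PP k = PP k * (u k dl⁻¹ - 1) := by noncomm_ring
  rw [this]
  exact Fl_mul F2_P (inv_mem_Fl _ F2_Z)

theorem tt_T0_Y : tt k T0 (YY k) = YY k := by rw [map_sub, map_one, tt_u, T0_c2]
theorem tt_T0_Z : tt k T0 (ZZ k) = ZZ k := by rw [map_sub, map_one, tt_u, T0_dl]

theorem T0_raise0 (a : A k) : tt k T0 a - a ∈ F2 k 2 := by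
  refine sub_mem_of_gen T0 2 (fun i => ?_) a
  obtain ⟨g, hg⟩ := T0_conj i
  rw [hg]
  exact conj_sub_F2 g (c i)

theorem F2_T0 {n : ℕ} {a : A k} (ha : a ∈ F2 k n) : tt k T0 a - a ∈ F2 k (n + 2) := by
  refine raise_sub (tt k T0) 2 T0_raise0 ?_ ha
  rintro n s (⟨rfl, rfl | rfl⟩ | ⟨rfl, rfl⟩)
  · exact tt_T0_X_mem
  · rw [show u k (c 2) - 1 = YY k from rfl, tt_T0_Y, sub_self]; exact zero_mem _
  · rw [show u k dl - 1 = ZZ k from rfl, tt_T0_Z, sub_self]; exact zero_mem _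

end Vale.Agent.P300.H959
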