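import Vale.Agent.P300.H959.Conc

/-! # P300 / H959 : the third difference raises the second filtration by three -/

namespace Vale.Agent.P300.H959

variable {k : Type*} [Field k]

/-- `T₀` as a linear map -/
noncomputable abbrev t0 (k : Type*) [Field k] : A k →ₗ[k] A k := (tt k T0).toLinearMap
noncomputable abbrev t1 (k : Type*) [Field k] : A k →ₗ[k] A k := (tt k T1).toLinearMap
noncomputable abbrev t1s (k : Type*) [Field k] : A k →ₗ[k] A k := (tt k T1⁻¹).toLinearMap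

/-- `E j = T₁^j (T₀ - 1) T₁^{-j}` -/
noncomputable def E (k : Type*) [Field k] : ℕ → (A k →ₗ[k] A k)
  | 0 => t0 k - LinearMap.id
  | j + 1 => t1 k ∘ₗ (E k j) ∘ₗ t1s k

/-- `D i` = `i`-th difference -/
noncomputable def D (k : Type*) [Field k] : ℕ → (A k →ₗ[k] A k)
  | 0 => t0 k - LinearMap.id
  | i + 1 => t1 k ∘ₗ (D k i) ∘ₗ t1s k - D k i

theorem E_zero (a : A k) : E k 0 a = tt k T0 a - a := rfl
theorem E_succ (j : ℕ) (a : A k) : E k (j + 1) a = tt k T1 (E k j (tt k T1⁻¹ a)) := rfl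
theorem D_zero (a : A k) : D k 0 a = tt k T0 a - a := rfl
theorem D_succ (i : ℕ) (a : A k) : D k (i + 1) a = tt k T1 (D k i (tt k T1⁻¹ a)) - D k i a := rfl

theorem D1_eq (a : A k) : D k 1 a = E k 1 a - E k 0 a := rfl

theorem D2_eq (a : A k) : D k 2 a = E k 2 a - 2 • E k 1 a + E k 0 a := by
  rw [D_succ, D1_eq, D1_eq, map_sub, ← E_succ, ← E_succ]
  simp only [two_smul]; abel

theorem D3_eq (a : A k) : D k 3 a = E k 3 a - 3 • E k 2 a + 3 • E k 1 a - E k 0 a := by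
  rw [D_succ, D2_eq, D2_eq, map_add, map_sub, map_nsmul, ← E_succ, ← E_succ, ← E_succ]
  abel

theorem E_mul (j : ℕ) : ∀ a b : A k, E k j (a * b) = E k j a * b + a * E k j b + E k j a * E k j b := by
  induction j with
  | zero =>
    intro a b
    rw [E_zero, E_zero, E_zero, map_mul]; noncomm_ring
  | succ j ih =>
    intro a b
    rw [E_succ, map_mul, ih, map_add, map_add, map_mul, map_mul, map_mul, tt_inv, tt_inv, ← E_succ, ← E_succ]

theorem E_F2 (j : ℕ) : ∀ {n : ℕ} {a : A k}, a ∈ F2 k n → E k j a ∈ F2 k (n + 2) := by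
  induction j with
  | zero => intro n a ha; exact F2_T0 ha
  | succ j ih => intro n a ha; exact F2_T1 (ih (F2_T1s ha))

theorem D_F2 (i : ℕ) : ∀ {n : ℕ} {a : A k}, a ∈ F2 k n → D k i a ∈ F2 k (n + 2) := by
  induction i with
  | zero => intro n a ha; exact F2_T0 ha
  | succ j ih => intro n a ha; exact sub_mem (F2_T1 (ih (F2_T1s ha))) (ih ha)

theorem D_F1 (i : ℕ) : ∀ {n : ℕ} {a : A k}, a ∈ F1 k n → D k i a ∈ F1 k (n + i + 1) := by
  induction i with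
  | zero => intro n a ha; exact F1_raise T0 T0_conj ha
  | succ i ih =>
    intro n a ha
    rw [D_succ]
    set b := tt k T1⁻¹ a with hb
    have hba : b - a ∈ F1 k (n + 1) := F1_raise T1⁻¹ T1s_conj ha
    have hbm : b ∈ F1 k n := by
      have : b = (b - a) + a := by abel
      rw [this]; exact add_mem (Fl_mono (by omega) hba) ha
    have : tt k T1 (D k i b) - D k i a = (tt k T1 (D k i b) - D k i b) + D k i (b - a) := by rw [map_sub]; abel
    rw [this]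
    refine add_mem ?_ ?_
    · exact Fl_mono (by omega) (F1_raise T1 T1_conj (ih hbm))
    · exact Fl_mono (by omega) (ih hba)

theorem T1_sub_F1 {n : ℕ} {a : A k} (ha : a ∈ F1 k n) : tt k T1 a - a ∈ F1 k (n + 1) := F1_raise T1 T1_conj ha

theorem T1_sub_F2 {n : ℕ} {a : A k} (ha : a ∈ F2 k n) : tt k T1 a - a ∈ F2 k n := sub_mem (F2_T1 ha) ha

/-- `D 3` is almost a derivation -/
theorem D3_mul {m n : ℕ} {a b : A k} (ha : a ∈ F2 k m) (hb : b ∈ F2 k n) :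
    D k 3 (a * b) - D k 3 a * b - a * D k 3 b ∈ F2 k (m + n + 4) := by
  have key : ∀ j, E k j a * E k j b ∈ F2 k (m + n + 4) := fun j => Fl_mul' (E_F2 j ha) (E_F2 j hb) (by omega)
  have : D k 3 (a * b) - D k 3 a * b - a * D k 3 b = E k 3 a * E k 3 b - 3 • (E k 2 a * E k 2 b)
      + 3 • (E k 1 a * E k 1 b) - E k 0 a * E k 0 b := by
    rw [D3_eq, D3_eq, D3_eq, E_mul, E_mul, E_mul, E_mul]
    noncomm_ring
  rw [this]
  exact sub_mem (add_mem (sub_mem (key 3) (nsmul_mem (key 2) 3)) (nsmul_mem (key 1) 3)) (key 0)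

/-! ## generators -/

theorem aux1 {M N : Type*} [AddCommGroup M] [AddCommGroup N] (t : M →+ N) (e P Q : M) (P' Q' : N) (j : ℕ) :
    t e - (P' + (j + 1) • Q') = t (e - (P + j • Q)) + (t P - (P' + Q')) + j • (t Q - Q') := by
  rw [map_sub, map_add, map_nsmul, smul_sub, add_smul, one_smul]; abel

theorem aux2 {M N : Type*} [AddCommGroup M] [AddCommGroup N] (t : M →+ N) (e R R₂ : M) (S S₂ : N) (j : ℕ) :
    t e + ((j + 1) • S + ((j + 1) ^ 2) • S₂) =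
        t (e + ((j + 1) • R + (j ^ 2 + j) • R₂)) - (j + 1) • (t R - (S + S₂)) - (j ^ 2 + j) • (t R₂ - S₂) := by
  have e3 : (j + 1) ^ 2 = (j ^ 2 + j) + (j + 1) := by ring
  rw [e3, add_smul (j ^ 2 + j) (j + 1) S₂, map_add, map_add, map_nsmul, map_nsmul, smul_sub, smul_sub, smul_add]
  abel

theorem aux3 {M : Type*} [AddCommGroup M] (e3 e2 e1 e0 P Q : M) :
    e3 - 3 • e2 + 3 • e1 - e0 = (e3 - (P + 3 • Q)) - 3 • (e2 - (P + 2 • Q)) + 3 • (e1 - (P + 1 • Q)) - (e0 - (P + 0 • Q)) := by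
  simp only [smul_sub, smul_add, smul_smul, zero_smul, one_smul]; norm_num; abel

theorem aux4 {M : Type*} [AddCommGroup M] (e3 e2 e1 e0 P Q : M) :
    e3 - 3 • e2 + 3 • e1 - e0 = (e3 + (3 • P + (3 ^ 2) • Q)) - 3 • (e2 + (2 • P + (2 ^ 2) • Q)) +
      3 • (e1 + (1 • P + (1 ^ 2) • Q)) - (e0 + (0 • P + (0 ^ 2) • Q)) := by
  simp only [smul_add, smul_smul]; norm_num; abel

theorem aux5 {M : Type*} [AddCommGroup M] (a b c d R R₂ : M) (j : ℕ) (h : a = b + c - d) :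
    a + ((j + 1) • R + (j ^ 2 + j) • R₂) = b + (c + (j • R + (j ^ 2) • R₂)) - (d - (R + j • R₂)) := by
  rw [h, add_smul, add_smul, one_smul]; abel

noncomputable abbrev QQ (k : Type*) [Field k] : A k := CC k * XX k - XX k * CC k
noncomputable abbrev RR (k : Type*) [Field k] : A k := PP k * YY k - YY k * PP k
noncomputable abbrev RR' (k : Type*) [Field k] : A k := QQ k * YY k - YY k * QQ k

theorem F2_Q : QQ k ∈ F2 k 3 := sub_mem (Fl_mul F2_C F2_X) (Fl_mul' F2_X F2_C (by norm_num))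
theorem F2_R : RR k ∈ F2 k 4 := sub_mem (Fl_mul F2_P F2_Y) (Fl_mul' F2_Y F2_P (by norm_num))
theorem F2_R' : RR' k ∈ F2 k 4 := sub_mem (Fl_mul F2_Q F2_Y) (Fl_mul' F2_Y F2_Q (by norm_num))

theorem T1_C : tt k T1 (CC k) - CC k ∈ F2 k 3 := by
  have : tt k T1 (CC k) - CC k = XX k * (tt k T1 (YY k) - YY k) - (tt k T1 (YY k) - YY k) * XX k := by
    rw [map_sub, map_mul, map_mul, tt_X_T1]; noncomm_ring
  rw [this]
  exact sub_mem (Fl_mul' F2_X tt_Y_T1 (by norm_num)) (Fl_mul' tt_Y_T1 F2_X (by norm_num))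

theorem T1s_C : tt k T1⁻¹ (CC k) - CC k ∈ F2 k 3 := by
  have : tt k T1⁻¹ (CC k) - CC k = XX k * (tt k T1⁻¹ (YY k) - YY k) - (tt k T1⁻¹ (YY k) - YY k) * XX k := by
    rw [map_sub, map_mul, map_mul, tt_X_T1s]; noncomm_ring
  rw [this]
  exact sub_mem (Fl_mul' F2_X tt_Y_T1s (by norm_num)) (Fl_mul' tt_Y_T1s F2_X (by norm_num))

theorem T1s_Z : tt k T1⁻¹ (ZZ k) - ZZ k + CC k ∈ F2 k 3 := by
  have h := F2_T1s (k := k) tt_Z_T1
  rw [map_sub, map_sub, tt_inv'] at h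
  have : tt k T1⁻¹ (ZZ k) - ZZ k + CC k = -(ZZ k - tt k T1⁻¹ (ZZ k) - tt k T1⁻¹ (CC k)) - (tt k T1⁻¹ (CC k) - CC k) := by
    abel
  rw [this]
  exact sub_mem (neg_mem h) T1s_C

theorem T1_P : tt k T1 (PP k) - (PP k + QQ k) ∈ F2 k 4 := by
  have : tt k T1 (PP k) - (PP k + QQ k) = (tt k T1 (ZZ k) - ZZ k - CC k) * XX k - XX k * (tt k T1 (ZZ k) - ZZ k - CC k) := by
    rw [map_sub, map_mul, map_mul, tt_X_T1]; noncomm_ring
  rw [this]
  exact sub_mem (Fl_mul' tt_Z_T1 F2_X (by norm_num)) (Fl_mul' F2_X tt_Z_T1 (by norm_num))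

theorem T1_Q : tt k T1 (QQ k) - QQ k ∈ F2 k 4 := by
  have : tt k T1 (QQ k) - QQ k = (tt k T1 (CC k) - CC k) * XX k - XX k * (tt k T1 (CC k) - CC k) := by
    rw [map_sub, map_mul, map_mul, tt_X_T1]; noncomm_ring
  rw [this]
  exact sub_mem (Fl_mul' T1_C F2_X (by norm_num)) (Fl_mul' F2_X T1_C (by norm_num))

theorem T1_YX : tt k T1 (YY k) ∈ F2 k 1 := F2_T1 F2_Y

theorem T1_R : tt k T1 (RR k) - (RR k + RR' k) ∈ F2 k 5 := by
  have : tt k T1 (RR k) - (RR k + RR' k) =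
      ((tt k T1 (PP k) - (PP k + QQ k)) * tt k T1 (YY k) + (PP k + QQ k) * (tt k T1 (YY k) - YY k))
      - (tt k T1 (YY k) * (tt k T1 (PP k) - (PP k + QQ k)) + (tt k T1 (YY k) - YY k) * (PP k + QQ k)) := by
    rw [map_sub (tt k T1) (PP k * YY k), map_mul, map_mul]; noncomm_ring
  rw [this]
  have hPQ : PP k + QQ k ∈ F2 k 3 := add_mem F2_P F2_Q
  exact sub_mem (add_mem (Fl_mul' T1_P T1_YX (by norm_num)) (Fl_mul' hPQ tt_Y_T1 (by norm_num)))
    (add_mem (Fl_mul' T1_YX T1_P (by norm_num)) (Fl_mul' tt_Y_T1 hPQ (by norm_num)))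

theorem T1_R' : tt k T1 (RR' k) - RR' k ∈ F2 k 5 := by
  have : tt k T1 (RR' k) - RR' k =
      ((tt k T1 (QQ k) - QQ k) * tt k T1 (YY k) + QQ k * (tt k T1 (YY k) - YY k))
      - (tt k T1 (YY k) * (tt k T1 (QQ k) - QQ k) + (tt k T1 (YY k) - YY k) * QQ k) := by
    rw [map_sub (tt k T1) (QQ k * YY k), map_mul, map_mul]; noncomm_ring
  rw [this]
  exact sub_mem (add_mem (Fl_mul' T1_Q T1_YX (by norm_num)) (Fl_mul' F2_Q tt_Y_T1 (by norm_num)))
    (add_mem (Fl_mul' T1_YX T1_Q (by norm_num)) (Fl_mul' tt_Y_T1 F2_Q (by norm_num)))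

theorem E_X (j : ℕ) : E k j (XX k) - (PP k + j • QQ k) ∈ F2 k 4 := by
  induction j with
  | zero =>
    rw [E_zero, zero_smul, add_zero]
    exact Fl_mono (by norm_num) tt_T0_X_mod
  | succ j ih =>
    rw [E_succ, tt_X_T1s]
    have : tt k T1 (E k j (XX k)) - (PP k + (j + 1) • QQ k) =
        tt k T1 (E k j (XX k) - (PP k + j • QQ k)) + (tt k T1 (PP k) - (PP k + QQ k)) + j • (tt k T1 (QQ k) - QQ k) := by
      exact aux1 (tt k T1 : A k →+ A k) _ _ _ _ _ j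
    rw [this]
    exact add_mem (add_mem (F2_T1 ih) T1_P) (nsmul_mem T1_Q j)

theorem E_X_mem (j : ℕ) : E k j (XX k) ∈ F2 k 3 := E_F2 j F2_X

theorem E_Y (j : ℕ) : E k j (YY k) ∈ F2 k 4 := by
  induction j with
  | zero => rw [E_zero, tt_T0_Y, sub_self]; exact zero_mem _
  | succ j ih =>
    rw [E_succ]
    refine F2_T1 ?_
    have : E k j (tt k T1⁻¹ (YY k)) = E k j (YY k) + E k j (tt k T1⁻¹ (YY k) - YY k) := by
      rw [map_sub (E k j) (tt k T1⁻¹ (YY k)) (YY k), add_sub_cancel]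
    rw [this]
    exact add_mem ih (E_F2 j tt_Y_T1s)

theorem E_C (j : ℕ) : E k j (CC k) - (RR k + j • RR' k) ∈ F2 k 5 := by
  have h1 := E_X (k := k) j
  have h2 := E_Y (k := k) j
  have h3 := E_X_mem (k := k) j
  have : E k j (CC k) - (RR k + j • RR' k) =
      ((E k j (XX k) - (PP k + j • QQ k)) * YY k - YY k * (E k j (XX k) - (PP k + j • QQ k)))
      + (XX k * E k j (YY k) + E k j (XX k) * E k j (YY k)) - (E k j (YY k) * XX k + E k j (YY k) * E k j (XX k)) := by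
    rw [map_sub, E_mul, E_mul, smul_sub, ← smul_mul_assoc, ← mul_smul_comm]; noncomm_ring
  rw [this]
  exact sub_mem (add_mem (sub_mem (Fl_mul' h1 F2_Y (by norm_num)) (Fl_mul' F2_Y h1 (by norm_num)))
    (add_mem (Fl_mul' F2_X h2 (by norm_num)) (Fl_mul' h3 h2 (by norm_num))))
    (add_mem (Fl_mul' h2 F2_X (by norm_num)) (Fl_mul' h2 h3 (by norm_num)))

theorem E_Z (j : ℕ) : E k j (ZZ k) + (j • RR k + (j ^ 2) • RR' k) ∈ F2 k 5 := by
  induction j with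
  | zero =>
    rw [E_zero, tt_T0_Z, sub_self]; simp
  | succ j ih =>
    rw [E_succ]
    have e1 : E k j (tt k T1⁻¹ (ZZ k)) = E k j (tt k T1⁻¹ (ZZ k) - ZZ k + CC k) + E k j (ZZ k) - E k j (CC k) := by
      rw [map_add (E k j) (tt k T1⁻¹ (ZZ k) - ZZ k) (CC k), map_sub (E k j) (tt k T1⁻¹ (ZZ k)) (ZZ k),
        add_right_comm, sub_add_cancel, add_sub_cancel_right]
    have h5 : E k j (tt k T1⁻¹ (ZZ k)) + ((j + 1) • RR k + (j ^ 2 + j) • RR' k) ∈ F2 k 5 := by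
      have : E k j (tt k T1⁻¹ (ZZ k)) + ((j + 1) • RR k + (j ^ 2 + j) • RR' k) =
          E k j (tt k T1⁻¹ (ZZ k) - ZZ k + CC k) + (E k j (ZZ k) + (j • RR k + (j ^ 2) • RR' k))
          - (E k j (CC k) - (RR k + j • RR' k)) := aux5 _ _ _ _ _ _ j e1
      rw [this]
      exact sub_mem (add_mem (E_F2 j T1s_Z) ih) (E_C j)
    have : tt k T1 (E k j (tt k T1⁻¹ (ZZ k))) + ((j + 1) • RR k + ((j + 1) ^ 2) • RR' k) =
        tt k T1 (E k j (tt k T1⁻¹ (ZZ k)) + ((j + 1) • RR k + (j ^ 2 + j) • RR' k))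
        - (j + 1) • (tt k T1 (RR k) - (RR k + RR' k)) - (j ^ 2 + j) • (tt k T1 (RR' k) - RR' k) :=
      aux2 (tt k T1 : A k →+ A k) _ _ _ _ _ j
    rw [this]
    exact sub_mem (sub_mem (F2_T1 h5) (nsmul_mem T1_R (j + 1))) (nsmul_mem T1_R' (j ^ 2 + j))

theorem D3_X : D k 3 (XX k) ∈ F2 k 4 := by
  have : D k 3 (XX k) = (E k 3 (XX k) - (PP k + 3 • QQ k)) - 3 • (E k 2 (XX k) - (PP k + 2 • QQ k))
      + 3 • (E k 1 (XX k) - (PP k + 1 • QQ k)) - (E k 0 (XX k) - (PP k + 0 • QQ k)) := by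
    rw [D3_eq]; exact aux3 _ _ _ _ _ _
  rw [this]
  exact sub_mem (add_mem (sub_mem (E_X 3) (nsmul_mem (E_X 2) 3)) (nsmul_mem (E_X 1) 3)) (E_X 0)

theorem D3_Y : D k 3 (YY k) ∈ F2 k 4 := by
  rw [D3_eq]
  exact sub_mem (add_mem (sub_mem (E_Y 3) (nsmul_mem (E_Y 2) 3)) (nsmul_mem (E_Y 1) 3)) (E_Y 0)

theorem D3_Z : D k 3 (ZZ k) ∈ F2 k 5 := by
  have : D k 3 (ZZ k) = (E k 3 (ZZ k) + (3 • RR k + (3 ^ 2) • RR' k)) - 3 • (E k 2 (ZZ k) + (2 • RR k + (2 ^ 2) • RR' k))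
      + 3 • (E k 1 (ZZ k) + (1 • RR k + (1 ^ 2) • RR' k)) - (E k 0 (ZZ k) + (0 • RR k + (0 ^ 2) • RR' k)) := by
    rw [D3_eq]; exact aux4 _ _ _ _ _ _
  rw [this]
  exact sub_mem (add_mem (sub_mem (E_Z 3) (nsmul_mem (E_Z 2) 3)) (nsmul_mem (E_Z 1) 3)) (E_Z 0)

theorem E_one (j : ℕ) : E k j 1 = 0 := by
  induction j with
  | zero => rw [E_zero, map_one, sub_self]
  | succ j ih => rw [E_succ, map_one, ih, map_zero]

theorem D3_one : D k 3 (1 : A k) = 0 := by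
  rw [D3_eq, E_one, E_one, E_one, E_one]; simp

theorem D3_mul0 (a b : A k) : D k 3 (a * b) - D k 3 a * b - a * D k 3 b ∈ F2 k 4 := by
  have := D3_mul (k := k) (m := 0) (n := 0) (mem_top a) (mem_top b)
  simpa using this

theorem D3_g (g : Gm) : D k 3 (u k g) ∈ F2 k 3 := by
  have hinv : ∀ g : Gm, D k 3 (u k g) ∈ F2 k 3 → D k 3 (u k g⁻¹) ∈ F2 k 3 := by
    intro g hg
    have e1 : u k g * u k g⁻¹ = 1 := by rw [← map_mul, mul_inv_cancel, map_one]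
    have e2 : u k g⁻¹ * u k g = 1 := by rw [← map_mul, inv_mul_cancel, map_one]
    have h := D3_mul0 (k := k) (u k g) (u k g⁻¹)
    rw [e1, D3_one] at h
    have : D k 3 (u k g⁻¹) = -(u k g⁻¹ * ((0 - D k 3 (u k g) * u k g⁻¹ - u k g * D k 3 (u k g⁻¹)) +
        D k 3 (u k g) * u k g⁻¹)) := by
      have : (0 - D k 3 (u k g) * u k g⁻¹ - u k g * D k 3 (u k g⁻¹)) + D k 3 (u k g) * u k g⁻¹ =
        -(u k g * D k 3 (u k g⁻¹)) := by abel
      rw [this, mul_neg, neg_neg, ← mul_assoc, e2, one_mul]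
    rw [this]
    exact neg_mem (Fl_mul_left _ (add_mem (Fl_mono (by norm_num) h) (Fl_mul_right _ hg)))
  have hmul : ∀ g h : Gm, D k 3 (u k g) ∈ F2 k 3 → D k 3 (u k h) ∈ F2 k 3 → D k 3 (u k (g * h)) ∈ F2 k 3 := by
    intro g h hg hh
    have : D k 3 (u k (g * h)) = (D k 3 (u k g * u k h) - D k 3 (u k g) * u k h - u k g * D k 3 (u k h)) +
        D k 3 (u k g) * u k h + u k g * D k 3 (u k h) := by rw [map_mul]; abel
    rw [this]
    exact add_mem (add_mem (Fl_mono (by norm_num) (D3_mul0 _ _)) (Fl_mul_right _ hg)) (Fl_mul_left _ hh)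
  have hgen : ∀ g : Gm, D k 3 (u k g - 1) ∈ F2 k 3 → D k 3 (u k g) ∈ F2 k 3 := by
    intro g hg
    rwa [map_sub, D3_one, sub_zero] at hg
  have h0 : D k 3 (u k (c 0)) ∈ F2 k 3 := hgen _ (Fl_mono (by norm_num) D3_X)
  have h2 : D k 3 (u k (c 2)) ∈ F2 k 3 := hgen _ (Fl_mono (by norm_num) D3_Y)
  have hd : D k 3 (u k dl) ∈ F2 k 3 := hgen _ (Fl_mono (by norm_num) D3_Z)
  refine Gm_induction (P := fun g => D k 3 (u k g) ∈ F2 k 3) ?_ ?_ hinv hmul g
  · rw [map_one, D3_one]; exact zero_mem _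
  · intro i
    fin_cases i
    · exact h0
    · change D k 3 (u k (c 1)) ∈ F2 k 3
      rw [c1_eq]
      exact hmul _ _ (hinv _ h0) hd
    · exact h2

theorem D3_all (a : A k) : D k 3 a ∈ F2 k 3 := by
  induction a using MonoidAlgebra.induction_on with
  | of g => exact D3_g g
  | add a b h1 h2 => rw [map_add]; exact add_mem h1 h2
  | smul r a h => rw [map_smul]; exact Submodule.smul_mem _ _ h

theorem D3_F2 {n : ℕ} {a : A k} (ha : a ∈ F2 k n) : D k 3 a ∈ F2 k (n + 3) := by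
  refine raise_Fl (D k 3) 3 D3_all ?_ ?_ ha
  · rintro n s (⟨rfl, rfl | rfl⟩ | ⟨rfl, rfl⟩)
    · exact D3_X
    · exact D3_Y
    · exact D3_Z
  · intro m n a b ha hb
    exact Fl_mono (by omega) (D3_mul ha hb)

/-- the exponents: `2, 2, 2, 3, 3, …` -/
def cc (i : ℕ) : ℕ := if i < 3 then 2 else 3

theorem D_F2' (i : ℕ) : ∀ {n : ℕ} {a : A k}, a ∈ F2 k n → D k (i + 3) a ∈ F2 k (n + 3) := by
  induction i with
  | zero => intro n a ha; exact D3_F2 ha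
  | succ i ih =>
    intro n a ha
    rw [show i + 1 + 3 = (i + 3) + 1 by ring, D_succ]
    exact sub_mem (F2_T1 (ih (F2_T1s ha))) (ih ha)

theorem D_cc (i : ℕ) {n : ℕ} {a : A k} (ha : a ∈ F2 k n) : D k i a ∈ F2 k (n + cc i) := by
  unfold cc
  split_ifs with h
  · exact D_F2 i ha
  · obtain ⟨j, rfl⟩ : ∃ j, i = j + 3 := ⟨i - 3, by omega⟩
    exact D_F2' j ha

end Vale.Agent.P300.H959
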