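import Mathlib

/-! # P300 / H959 : multiplicative filtrations of a group algebra generated by weighted elements -/

namespace Vale.Agent.P300.H959

variable {k : Type*} [CommRing k] {A : Type*} [Ring A] [Algebra k A]

/-- `WD k S n a`: `a` has degree at least `n` for the smallest multiplicative filtration in which the elements of
`S m` have degree `m`. -/
inductive WD (k : Type*) [CommRing k] {A : Type*} [Ring A] [Algebra k A] (S : ℕ → Set A) : ℕ → A → Prop
  | zero (n : ℕ) : WD k S n 0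
  | top (a : A) : WD k S 0 a
  | gen {n : ℕ} {a : A} : a ∈ S n → WD k S n a
  | mul {m n : ℕ} {a b : A} : WD k S m a → WD k S n b → WD k S (m + n) (a * b)
  | add {n : ℕ} {a b : A} : WD k S n a → WD k S n b → WD k S n (a + b)
  | smul {n : ℕ} (c : k) {a : A} : WD k S n a → WD k S n (c • a)
  | mono {m n : ℕ} {a : A} : m ≤ n → WD k S n a → WD k S m a

/-- the filtration as a family of submodules -/
def Fl (k : Type*) [CommRing k] {A : Type*} [Ring A] [Algebra k A] (S : ℕ → Set A) (n : ℕ) : Submodule k A where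
  carrier := {a | WD k S n a}
  add_mem' h1 h2 := WD.add h1 h2
  zero_mem' := WD.zero n
  smul_mem' c _ h := WD.smul c h

variable {S : ℕ → Set A}

theorem Fl_zero : Fl k S 0 = ⊤ := eq_top_iff.2 fun a _ => WD.top a

theorem mem_top (a : A) : a ∈ Fl k S 0 := WD.top a

theorem Fl_gen {n : ℕ} {a : A} (h : a ∈ S n) : a ∈ Fl k S n := WD.gen h

theorem Fl_mono {m n : ℕ} (h : m ≤ n) : Fl k S n ≤ Fl k S m := fun _ ha => WD.mono h ha

theorem Fl_mul {m n : ℕ} {a b : A} (ha : a ∈ Fl k S m) (hb : b ∈ Fl k S n) : a * b ∈ Fl k S (m + n) := WD.mul ha hb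

theorem Fl_mul' {m n p : ℕ} {a b : A} (ha : a ∈ Fl k S m) (hb : b ∈ Fl k S n) (h : p ≤ m + n) : a * b ∈ Fl k S p :=
  Fl_mono h (Fl_mul ha hb)

theorem Fl_mul_left {n : ℕ} (a : A) {b : A} (hb : b ∈ Fl k S n) : a * b ∈ Fl k S n :=
  Fl_mul' (mem_top a) hb (by simp)

theorem Fl_mul_right {n : ℕ} {a : A} (b : A) (ha : a ∈ Fl k S n) : a * b ∈ Fl k S n :=
  Fl_mul' ha (mem_top b) (by simp)

/-- an algebra map which sends the generators to the right place respects the filtrations -/
theorem map_Fl {A' : Type*} [Ring A'] [Algebra k A'] {S' : ℕ → Set A'} (f : A →ₐ[k] A')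
    (h : ∀ n, ∀ s ∈ S n, f s ∈ Fl k S' n) {n : ℕ} {a : A} (ha : a ∈ Fl k S n) : f a ∈ Fl k S' n := by
  change WD k S n a at ha
  induction ha with
  | zero n => rw [map_zero]; exact zero_mem _
  | top a => exact mem_top _
  | gen hs => exact h _ _ hs
  | mul _ _ h1 h2 => rw [map_mul]; exact Fl_mul h1 h2
  | add _ _ h1 h2 => rw [map_add]; exact add_mem h1 h2
  | smul c _ h1 => rw [map_smul]; exact Submodule.smul_mem _ _ h1
  | mono hmn _ h1 => exact Fl_mono hmn h1

/-- almost-derivations of degree `r` -/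
theorem raise_Fl (D : A →ₗ[k] A) (r : ℕ) (h0 : ∀ a, D a ∈ Fl k S r) (hS : ∀ n, ∀ s ∈ S n, D s ∈ Fl k S (n + r))
    (hm : ∀ m n a b, a ∈ Fl k S m → b ∈ Fl k S n → D (a * b) - D a * b - a * D b ∈ Fl k S (m + n + r))
    {n : ℕ} {a : A} (ha : a ∈ Fl k S n) : D a ∈ Fl k S (n + r) := by
  change WD k S n a at ha
  induction ha with
  | zero n => rw [map_zero]; exact zero_mem _
  | top a => rw [Nat.zero_add]; exact h0 a
  | gen hs => exact hS _ _ hs
  | @mul m n a b ha hb h1 h2 =>
    have e := hm m n a b ha hb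
    have e1 : D a * b ∈ Fl k S (m + n + r) := Fl_mul' h1 hb (by omega)
    have e2 : a * D b ∈ Fl k S (m + n + r) := Fl_mul' ha h2 (by omega)
    have : D (a * b) = (D (a * b) - D a * b - a * D b) + D a * b + a * D b := by abel
    rw [this]
    exact add_mem (add_mem e e1) e2
  | add _ _ h1 h2 => rw [map_add]; exact add_mem h1 h2
  | smul c _ h1 => rw [map_smul]; exact Submodule.smul_mem _ _ h1
  | mono hmn _ h1 => exact Fl_mono (by omega) h1

/-- `T - 1` for an algebra map `T` -/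
theorem raise_sub (T : A →ₐ[k] A) (r : ℕ) (h0 : ∀ a, T a - a ∈ Fl k S r) (hS : ∀ n, ∀ s ∈ S n, T s - s ∈ Fl k S (n + r))
    {n : ℕ} {a : A} (ha : a ∈ Fl k S n) : T a - a ∈ Fl k S (n + r) := by
  change WD k S n a at ha
  induction ha with
  | zero n => rw [map_zero, sub_zero]; exact zero_mem _
  | top a => rw [Nat.zero_add]; exact h0 a
  | gen hs => exact hS _ _ hs
  | @mul m n a b ha hb h1 h2 =>
    have : T (a * b) - a * b = (T a - a) * b + T a * (T b - b) := by rw [map_mul]; noncomm_ring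
    rw [this]
    have hTa : T a ∈ Fl k S m := by
      have : T a = (T a - a) + a := by abel
      rw [this]
      exact add_mem (Fl_mono (by omega) h1) ha
    exact add_mem (Fl_mul' h1 hb (by omega)) (Fl_mul' hTa h2 (by omega))
  | @add n a b _ _ h1 h2 =>
    have : T (a + b) - (a + b) = (T a - a) + (T b - b) := by rw [map_add]; abel
    rw [this]; exact add_mem h1 h2
  | @smul n c a _ h1 =>
    have : T (c • a) - c • a = c • (T a - a) := by rw [map_smul, smul_sub]
    rw [this]; exact Submodule.smul_mem _ _ h1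
  | mono hmn _ h1 => exact Fl_mono (by omega) h1

section Group

variable {G : Type*} [Group G]

/-- group elements in an algebra: `u : G →* A` -/
theorem inv_mem_Fl (u : G →* A) {n : ℕ} {g : G} (h : u g - 1 ∈ Fl k S n) : u g⁻¹ - 1 ∈ Fl k S n := by
  have : u g⁻¹ - 1 = -(u g⁻¹ * (u g - 1)) := by
    have e : u g⁻¹ * u g = 1 := by rw [← map_mul, inv_mul_cancel, map_one]
    rw [mul_sub, e, mul_one]; abel
  rw [this]
  exact neg_mem (Fl_mul_left _ h)

theorem mul_mem_Fl (u : G →* A) {n : ℕ} {g h : G} (hg : u g - 1 ∈ Fl k S n) (hh : u h - 1 ∈ Fl k S n) :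
    u (g * h) - 1 ∈ Fl k S n := by
  have : u (g * h) - 1 = u g * (u h - 1) + (u g - 1) := by rw [map_mul]; noncomm_ring
  rw [this]
  exact add_mem (Fl_mul_left _ hh) hg

/-- commutators -/
theorem comm_mem_Fl (u : G →* A) {m n : ℕ} {g h : G} (hg : u g - 1 ∈ Fl k S m) (hh : u h - 1 ∈ Fl k S n) :
    u (g * h * g⁻¹ * h⁻¹) - 1 ∈ Fl k S (m + n) := by
  have e1 : u g * u g⁻¹ = 1 := by rw [← map_mul, mul_inv_cancel, map_one]
  have e2 : u h * u h⁻¹ = 1 := by rw [← map_mul, mul_inv_cancel, map_one]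
  have : u (g * h * g⁻¹ * h⁻¹) - 1 = ((u g - 1) * (u h - 1) - (u h - 1) * (u g - 1)) * (u g⁻¹ * u h⁻¹) := by
    rw [map_mul, map_mul, map_mul]
    have e3 : u h * u g * (u g⁻¹ * u h⁻¹) = 1 := by
      rw [mul_assoc, ← mul_assoc (u g), e1, one_mul, e2]
    have e4 : (u g - 1) * (u h - 1) - (u h - 1) * (u g - 1) = u g * u h - u h * u g := by noncomm_ring
    rw [e4, sub_mul, e3, mul_assoc (u g * u h)]
  rw [this]
  exact Fl_mul_right _ (sub_mem (Fl_mul hg hh) (Fl_mono (by omega) (Fl_mul hh hg)))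

end Group

end Vale.Agent.P300.H959
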