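import Vale.Agent.P300.H959.Delta
import Vale.Agent.P300.H863.Fox
import Vale.Agent.P300.H615.Words
import Vale.Agent.P300.H746.Num

/-! # P300 / H959 : Lemma A

`Γ` free on `c₁, c₂, c₃`, `V` free on `T₀, T₁`, `π : c₁, c₂, c₃ ↦ x, x⁻¹, y`.
For every `a` in the augmentation ideal of `k[Γ]` the orbit `π (v a)`, `v ∈ V`, is contained in the closed span of a
countable family of elements of `k[F₂]` whose `t`-mass is finite, for a fixed `t > 1/2`. -/

namespace Vale.Agent.P300.H959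

open Vale.Agent.P300.GS Submodule

variable (k : Type*) [Field k]

/-- the monodromy group -/
abbrev VV := FreeGroup (Fin 2)

/-- its action on `Γ` -/
def act : VV →* MulAut Gm := FreeGroup.lift ![T0, T1]

@[simp] theorem act_0 : act (FreeGroup.of 0) = T0 := FreeGroup.lift_apply_of (f := ![T0, T1]) (x := 0)
@[simp] theorem act_1 : act (FreeGroup.of 1) = T1 := FreeGroup.lift_apply_of (f := ![T0, T1]) (x := 1)

/-- the linear action of the automorphism group on `k[Γ]` -/
noncomputable def rho : MulAut Gm →* (A k ≃ₗ[k] A k) where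
  toFun φ := LinearEquiv.ofLinearMap (tt k φ).toLinearMap (tt k φ⁻¹).toLinearMap
    (by ext a; simp [tt_inv]) (by ext a; simp [tt_inv'])
  map_one' := by
    apply LinearEquiv.ext; intro a; exact tt_one k a
  map_mul' φ ψ := by
    apply LinearEquiv.ext; intro a; exact tt_mul k φ ψ a

theorem rho_apply (φ : MulAut Gm) (a : A k) : rho k φ a = tt k φ a := rfl
theorem rho_symm_apply (φ : MulAut Gm) (a : A k) : (rho k φ).symm a = tt k φ⁻¹ a := rfl

/-- the projection `k[Γ] → k[F₂]` -/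
noncomputable def pp : A k →ₐ[k] MonoidAlgebra k G0 := MonoidAlgebra.mapDomainAlgHom k k pr

@[simp] theorem pp_u (g : Gm) : pp k (u k g) = MonoidAlgebra.of k G0 (pr g) := by
  simp [pp, u, MonoidAlgebra.of_apply]

variable {k}

/-- an algebra map to a group algebra which sends the generators to the right place -/
theorem map_Fl_augF {G : Type*} [Group G] {S : ℕ → Set (A k)} (f : A k →ₐ[k] MonoidAlgebra k G)
    (h : ∀ n, ∀ s ∈ S n, f s ∈ augF k G n) {n : ℕ} {a : A k} (ha : a ∈ Fl k S n) : f a ∈ augF k G n := by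
  change WD k S n a at ha
  induction ha with
  | zero n => rw [map_zero]; exact zero_mem _
  | top a => rw [augF_zero]; trivial
  | gen hs => exact h _ _ hs
  | mul _ _ h1 h2 => rw [map_mul]; exact augF_mul h1 h2
  | add _ _ h1 h2 => rw [map_add]; exact add_mem h1 h2
  | smul c _ h1 => rw [map_smul]; exact Submodule.smul_mem _ _ h1
  | mono hmn _ h1 => exact augF_anti hmn h1

theorem F1_le_augF {n : ℕ} {a : A k} (ha : a ∈ F1 k n) : a ∈ augF k Gm n := by
  refine map_Fl_augF (AlgHom.id k (A k)) ?_ ha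
  rintro n s ⟨rfl, i, rfl⟩
  exact augF_one_sub _

theorem sub_aug_mem {S : ℕ → Set (A k)} (h : ∀ g : Gm, u k g - 1 ∈ Fl k S 1) (r : A k) :
    r - algebraMap k _ (aug k Gm r) ∈ Fl k S 1 := by
  induction r using MonoidAlgebra.induction_on with
  | of g => rw [aug_of, map_one]; exact h g
  | add x y hx hy => rw [map_add, map_add, add_sub_add_comm]; exact add_mem hx hy
  | smul c x hx =>
    have e : c • x - algebraMap k (A k) (aug k Gm (c • x)) = c • (x - algebraMap k _ (aug k Gm x)) := by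
      rw [map_smul, smul_eq_mul, map_mul, smul_sub, Algebra.smul_def c (algebraMap k (A k) _)]
    rw [e]
    exact Submodule.smul_mem _ _ hx

theorem augF_one_le {S : ℕ → Set (A k)} (h : ∀ g : Gm, u k g - 1 ∈ Fl k S 1) {r : A k}
    (hr : r ∈ augF k Gm 1) : r ∈ Fl k S 1 := by
  have := sub_aug_mem h r
  rwa [mem_augF_one.1 hr, map_zero, sub_zero] at this

theorem augF_le {S : ℕ → Set (A k)} (h : ∀ g : Gm, u k g - 1 ∈ Fl k S 1) {n : ℕ} {r : A k}
    (hr : r ∈ augF k Gm n) : r ∈ Fl k S n := by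
  induction n generalizing r with
  | zero => exact mem_top r
  | succ n ih =>
    rw [mem_augF, Submodule.pow_succ] at hr
    refine Submodule.mul_induction_on (C := fun r => r ∈ Fl k S (n + 1)) hr (fun a ha b hb => ?_)
      fun x y hx hy => add_mem hx hy
    exact Fl_mul (ih ha) (augF_one_le h (mem_augF_one.2 hb))

/-- the first filtration is the augmentation filtration -/
theorem mem_F1_iff {n : ℕ} {a : A k} : a ∈ F1 k n ↔ a ∈ augF k Gm n := ⟨F1_le_augF, augF_le F1_g⟩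

theorem pp_F1 {n : ℕ} {a : A k} (ha : a ∈ F1 k n) : pp k a ∈ augF k G0 n := map_augF pr (F1_le_augF ha)

theorem pp_F2 {n : ℕ} {a : A k} (ha : a ∈ F2 k n) : pp k a ∈ augF k G0 n := by
  refine map_Fl_augF (pp k) ?_ ha
  rintro n s (⟨rfl, rfl | rfl⟩ | ⟨rfl, rfl⟩)
  · rw [map_sub, map_one, pp_u]; exact augF_one_sub _
  · rw [map_sub, map_one, pp_u]; exact augF_one_sub _
  · rw [map_sub, map_one, pp_u, pr_dl, map_one, sub_self]; exact zero_mem _

/-- automorphisms in the image of `V` raise the augmentation filtration by one -/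
theorem T_raise (φ : MulAut Gm) (h : ∀ i, ∃ g, φ (c i) = g * c i * g⁻¹) {n : ℕ} {a : A k} (ha : a ∈ augF k Gm n) :
    tt k φ a - a ∈ augF k Gm (n + 1) := mem_F1_iff.1 (F1_raise φ h (mem_F1_iff.2 ha))

/-- every `v ∈ V` maps each `cᵢ` to a conjugate -/
theorem act_conj (v : VV) : ∀ i, ∃ g, act v (c i) = g * c i * g⁻¹ := by
  have hmul : ∀ φ ψ : MulAut Gm, (∀ i, ∃ g, φ (c i) = g * c i * g⁻¹) → (∀ i, ∃ g, ψ (c i) = g * c i * g⁻¹) →
      ∀ i, ∃ g, (φ * ψ) (c i) = g * c i * g⁻¹ := by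
    intro φ ψ h1 h2 i
    obtain ⟨g, hg⟩ := h2 i
    obtain ⟨g', hg'⟩ := h1 i
    refine ⟨φ g * g', ?_⟩
    rw [MulAut.mul_apply, hg, map_mul, map_mul, map_inv, hg']
    group
  refine FreeGroup.induction_on v ?_ ?_ ?_ ?_
  · intro i; exact ⟨1, by simp⟩
  · intro j
    fin_cases j
    · change ∀ i, ∃ g, act (FreeGroup.of 0) (c i) = g * c i * g⁻¹
      rw [act_0]; exact T0_conj
    · change ∀ i, ∃ g, act (FreeGroup.of 1) (c i) = g * c i * g⁻¹
      rw [act_1]; exact T1_conj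
  · intro j _
    fin_cases j
    · change ∀ i, ∃ g, act (FreeGroup.of 0)⁻¹ (c i) = g * c i * g⁻¹
      rw [map_inv, act_0]; exact T0s_conj
    · change ∀ i, ∃ g, act (FreeGroup.of 1)⁻¹ (c i) = g * c i * g⁻¹
      rw [map_inv, act_1]; exact T1s_conj
  · intro x y hx hy
    rw [map_mul]
    exact hmul _ _ hx hy

/-- `V` acts unipotently on the augmentation filtration -/
theorem act_raise (v : VV) {n : ℕ} {a : A k} (ha : a ∈ augF k Gm n) :
    tt k (act v) a - a ∈ augF k Gm (n + 1) := T_raise _ (act_conj v) ha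

theorem uni : H615.Uni (F1 k) (rho k T0) (rho k T1) where
  anti n := Fl_mono (Nat.le_succ n)
  h0 _ _ ha := F1_raise T0 T0_conj ha
  h0' _ _ ha := F1_raise T0⁻¹ T0s_conj ha
  h1 _ _ ha := F1_raise T1 T1_conj ha
  h1' _ _ ha := F1_raise T1⁻¹ T1s_conj ha

theorem Dop_eq (i : ℕ) : ∀ a : A k, H615.Dop (rho k T0) (rho k T1) i a = D k i a := by
  induction i with
  | zero => intro a; rfl
  | succ i ih =>
    intro a
    have h1 : H615.Dop (rho k T0) (rho k T1) (i + 1) a =
        tt k T1 (H615.Dop (rho k T0) (rho k T1) i (tt k T1⁻¹ a)) - H615.Dop (rho k T0) (rho k T1) i a := rfl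
    rw [h1, ih, ih, D_succ]

theorem raise_cc (i : ℕ) : H615.Raise (F2 k) (LAN.c i) (H615.Dop (rho k T0) (rho k T1) i) := by
  intro n a ha
  rw [Dop_eq]
  have h := D_cc i ha
  have e : cc i = LAN.c i := by unfold cc LAN.c; split_ifs <;> omega
  rwa [e] at h

theorem raise_T1 : H615.Raise (F2 k) 0 (H615.toE (rho k T1)) := fun _ _ ha => F2_T1 ha

/-- the words applied to `a` and projected -/
noncomputable def ww (a : A k) (p : List ℕ × ℕ) : MonoidAlgebra k G0 :=
  pp k (H615.Op (rho k T0) (rho k T1) p.1 p.2 a)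

theorem ww_mem {a : A k} (ha : a ∈ augF k Gm 1) (p : List ℕ × ℕ) : ww a p ∈ augF k G0 (LAN.dd p) := by
  have h1 : ww a p ∈ augF k G0 (LAN.d1 p) := by
    refine augF_anti ?_ (pp_F1 (uni.raise_Op p.1 p.2 1 a (mem_F1_iff.2 ha)))
    unfold LAN.d1; omega
  have h2 : ww a p ∈ augF k G0 (LAN.d2 p) := by
    refine augF_anti ?_ (pp_F2 (H615.raise_Op_of LAN.c raise_cc raise_T1 p.1 p.2 1 a (augF_one_le F2_g ha)))
    unfold LAN.d2; omega
  unfold LAN.dd
  rcases max_cases (LAN.d1 p) (LAN.d2 p) with ⟨h, -⟩ | ⟨h, -⟩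
  · rwa [h]
  · rwa [h]

theorem gen_V : Subgroup.closure ({FreeGroup.of 0, FreeGroup.of 1} : Set VV) = ⊤ := by
  have h := FreeGroup.closure_range_of (Fin 2)
  rw [← h]
  congr 1
  ext x
  constructor
  · rintro (rfl | rfl)
    · exact ⟨0, rfl⟩
    · exact ⟨1, rfl⟩
  · rintro ⟨i, rfl⟩
    fin_cases i
    · exact Or.inl rfl
    · exact Or.inr rfl

/-- **Lemma A.** -/
theorem lemmaA (a : A k) (v : VV) (n : ℕ) :
    pp k (tt k (act v) a) ∈ span k (Set.range (ww a)) ⊔ augF k G0 n := by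
  have h := uni.words_rep (k := k) (a := a) (mem_top a) n ((rho k).comp act) (FreeGroup.of 0) (FreeGroup.of 1) gen_V
    (by rw [MonoidHom.comp_apply, act_0]) (by rw [MonoidHom.comp_apply, act_1]) v
  have h' : tt k (act v) a ∈ H615.WS (F1 k) (rho k T0) (rho k T1) a n := h
  have hle : H615.WS (F1 k) (rho k T0) (rho k T1) a n ≤
      (span k (Set.range (ww a)) ⊔ augF k G0 n).comap (pp k).toLinearMap := by
    refine sup_le (span_le.2 ?_) ?_
    · rintro _ ⟨p, rfl⟩
      exact mem_sup_left (subset_span ⟨p, rfl⟩)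
    · intro b hb
      exact mem_sup_right (pp_F1 hb)
  exact hle h'

/-- **Lemma A, existence form.** -/
theorem lemmaA_exists (k : Type*) [Field k] : ∃ t : ℝ, 1 / 2 < t ∧ t < 1 ∧ ∀ a ∈ augF k Gm 1,
    ∃ (w : List ℕ × ℕ → MonoidAlgebra k G0) (d : List ℕ × ℕ → ℕ), (∀ p, w p ∈ augF k G0 (d p)) ∧ (∀ p, 1 ≤ d p) ∧
      (Summable fun p => t ^ d p) ∧
      ∀ (v : VV) (n : ℕ), pp k (tt k (act v) a) ∈ span k (Set.range w) ⊔ augF k G0 n :=
  ⟨LAN.s ^ 10, LAN.half_lt, LAN.pow_lt_one', fun a ha =>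
    ⟨ww a, LAN.dd, ww_mem ha, LAN.one_le_dd, LAN.summable_dd, lemmaA a⟩⟩

end Vale.Agent.P300.H959
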