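import Vale.Agent.P300.H959.Filt

/-! # P300 / H959 : the monodromy automorphisms of the free group on three generators -/

namespace Vale.Agent.P300.H959

/-- free group on `c₁, c₂, c₃` -/
abbrev Gm := FreeGroup (Fin 3)
/-- free group on `x, y` -/
abbrev G0 := FreeGroup (Fin 2)

def c (i : Fin 3) : Gm := FreeGroup.of i
def dl : Gm := c 0 * c 1
def ep : Gm := c 1 * c 2

/-- `T₀`: `c₁, c₂ ↦ δ cᵢ δ⁻¹`, `c₃` fixed -/
def T0 : MulAut Gm :=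
  MonoidHom.toMulEquiv
    (FreeGroup.lift ![dl * c 0 * dl⁻¹, dl * c 1 * dl⁻¹, c 2])
    (FreeGroup.lift ![dl⁻¹ * c 0 * dl, dl⁻¹ * c 1 * dl, c 2])
    (by
      ext i; fin_cases i <;> simp [c, dl, mul_assoc])
    (by
      ext i; fin_cases i <;> simp [c, dl, mul_assoc])

/-- `T₁`: `c₂, c₃ ↦ ε cᵢ ε⁻¹`, `c₁` fixed -/
def T1 : MulAut Gm :=
  MonoidHom.toMulEquiv
    (FreeGroup.lift ![c 0, ep * c 1 * ep⁻¹, ep * c 2 * ep⁻¹])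
    (FreeGroup.lift ![c 0, ep⁻¹ * c 1 * ep, ep⁻¹ * c 2 * ep])
    (by
      ext i; fin_cases i <;> simp [c, ep, mul_assoc])
    (by
      ext i; fin_cases i <;> simp [c, ep, mul_assoc])

/-- `π`: `c₁ ↦ x`, `c₂ ↦ x⁻¹`, `c₃ ↦ y` -/
def pr : Gm →* G0 := FreeGroup.lift ![FreeGroup.of 0, (FreeGroup.of 0)⁻¹, FreeGroup.of 1]

@[simp] theorem T0_c0 : T0 (c 0) = dl * c 0 * dl⁻¹ :=
  FreeGroup.lift_apply_of (f := ![dl * c 0 * dl⁻¹, dl * c 1 * dl⁻¹, c 2]) (x := 0)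
@[simp] theorem T0_c1 : T0 (c 1) = dl * c 1 * dl⁻¹ :=
  FreeGroup.lift_apply_of (f := ![dl * c 0 * dl⁻¹, dl * c 1 * dl⁻¹, c 2]) (x := 1)
@[simp] theorem T0_c2 : T0 (c 2) = c 2 :=
  FreeGroup.lift_apply_of (f := ![dl * c 0 * dl⁻¹, dl * c 1 * dl⁻¹, c 2]) (x := 2)
@[simp] theorem T0s_c0 : T0.symm (c 0) = dl⁻¹ * c 0 * dl :=
  FreeGroup.lift_apply_of (f := ![dl⁻¹ * c 0 * dl, dl⁻¹ * c 1 * dl, c 2]) (x := 0)
@[simp] theorem T0s_c1 : T0.symm (c 1) = dl⁻¹ * c 1 * dl :=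
  FreeGroup.lift_apply_of (f := ![dl⁻¹ * c 0 * dl, dl⁻¹ * c 1 * dl, c 2]) (x := 1)
@[simp] theorem T0s_c2 : T0.symm (c 2) = c 2 :=
  FreeGroup.lift_apply_of (f := ![dl⁻¹ * c 0 * dl, dl⁻¹ * c 1 * dl, c 2]) (x := 2)
@[simp] theorem T1_c0 : T1 (c 0) = c 0 :=
  FreeGroup.lift_apply_of (f := ![c 0, ep * c 1 * ep⁻¹, ep * c 2 * ep⁻¹]) (x := 0)
@[simp] theorem T1_c1 : T1 (c 1) = ep * c 1 * ep⁻¹ :=
  FreeGroup.lift_apply_of (f := ![c 0, ep * c 1 * ep⁻¹, ep * c 2 * ep⁻¹]) (x := 1)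
@[simp] theorem T1_c2 : T1 (c 2) = ep * c 2 * ep⁻¹ :=
  FreeGroup.lift_apply_of (f := ![c 0, ep * c 1 * ep⁻¹, ep * c 2 * ep⁻¹]) (x := 2)
@[simp] theorem T1s_c0 : T1.symm (c 0) = c 0 :=
  FreeGroup.lift_apply_of (f := ![c 0, ep⁻¹ * c 1 * ep, ep⁻¹ * c 2 * ep]) (x := 0)
@[simp] theorem T1s_c1 : T1.symm (c 1) = ep⁻¹ * c 1 * ep :=
  FreeGroup.lift_apply_of (f := ![c 0, ep⁻¹ * c 1 * ep, ep⁻¹ * c 2 * ep]) (x := 1)
@[simp] theorem T1s_c2 : T1.symm (c 2) = ep⁻¹ * c 2 * ep :=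
  FreeGroup.lift_apply_of (f := ![c 0, ep⁻¹ * c 1 * ep, ep⁻¹ * c 2 * ep]) (x := 2)

@[simp] theorem T0_dl : T0 dl = dl := by
  rw [show dl = c 0 * c 1 from rfl, map_mul, T0_c0, T0_c1]; simp only [dl]; group
@[simp] theorem T1_ep : T1 ep = ep := by
  rw [show ep = c 1 * c 2 from rfl, map_mul, T1_c1, T1_c2]; simp only [ep]; group

theorem T1_dl : T1 dl = dl * ((c 1)⁻¹ * ep * (c 1) * ep⁻¹) := by
  rw [show dl = c 0 * c 1 from rfl, map_mul, T1_c0, T1_c1]; group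

theorem T1s_dl : T1.symm dl = dl * ((c 1)⁻¹ * ep⁻¹ * (c 1) * ep) := by
  rw [show dl = c 0 * c 1 from rfl, map_mul, T1s_c0, T1s_c1]; group

@[simp] theorem pr_c0 : pr (c 0) = FreeGroup.of 0 :=
  FreeGroup.lift_apply_of (f := ![(FreeGroup.of 0 : G0), (FreeGroup.of 0)⁻¹, FreeGroup.of 1]) (x := 0)
@[simp] theorem pr_c1 : pr (c 1) = (FreeGroup.of 0)⁻¹ :=
  FreeGroup.lift_apply_of (f := ![(FreeGroup.of 0 : G0), (FreeGroup.of 0)⁻¹, FreeGroup.of 1]) (x := 1)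
@[simp] theorem pr_c2 : pr (c 2) = FreeGroup.of 1 :=
  FreeGroup.lift_apply_of (f := ![(FreeGroup.of 0 : G0), (FreeGroup.of 0)⁻¹, FreeGroup.of 1]) (x := 2)
@[simp] theorem pr_dl : pr dl = 1 := by
  rw [dl, map_mul, pr_c0, pr_c1, mul_inv_cancel]

/-- induction on `Gm` -/
theorem Gm_induction {P : Gm → Prop} (h1 : P 1) (hc : ∀ i, P (c i)) (hi : ∀ g, P g → P g⁻¹)
    (hm : ∀ g h, P g → P h → P (g * h)) (g : Gm) : P g := by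
  refine FreeGroup.induction_on g h1 (fun i => hc i) (fun i _ => hi _ (hc i)) (fun g h a b => hm _ _ a b)

end Vale.Agent.P300.H959
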