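import Vale.Agent.P300.H863.Gsla2

/-! # P300 / H959 : the congruence subgroups `R_n = {g : g - 1 ∈ J + I^n}` -/

namespace Vale.Agent.P300.H959

open Vale.Agent.P300.GS Submodule MonoidAlgebra

section basic

variable (F : Type*) [Field F] {G : Type*} [Group G] (S : Set (MonoidAlgebra F G))

/-- the subspace `J(S) + I^n` -/
noncomputable abbrev KS (n : ℕ) : Submodule F (MonoidAlgebra F G) := JS F S ⊔ augF F G n

variable {F S}

theorem KS_mul_left {n : ℕ} (a : MonoidAlgebra F G) {x : MonoidAlgebra F G} (hx : x ∈ KS F S n) : a * x ∈ KS F S n := by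
  obtain ⟨j, hj, i, hi, rfl⟩ := mem_sup.mp hx
  rw [mul_add]
  exact add_mem (mem_sup_left (JS_mul_left _ hj)) (mem_sup_right (augF_mul_left _ hi))

theorem KS_mul_right {n : ℕ} (a : MonoidAlgebra F G) {x : MonoidAlgebra F G} (hx : x ∈ KS F S n) : x * a ∈ KS F S n := by
  obtain ⟨j, hj, i, hi, rfl⟩ := mem_sup.mp hx
  rw [add_mul]
  exact add_mem (mem_sup_left (JS_mul_right _ hj)) (mem_sup_right (augF_mul_right _ hi))

theorem KS_anti : Antitone (KS F S) := fun _ _ h => sup_le_sup_left (augF_anti h) _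

variable (F S)

/-- the congruence subgroup -/
noncomputable def Rn (n : ℕ) : Subgroup G where
  carrier := {g | of F G g - 1 ∈ KS F S n}
  one_mem' := by
    show of F G 1 - 1 ∈ KS F S n
    rw [map_one, sub_self]
    exact zero_mem _
  mul_mem' := fun {a b} ha hb => by
    have e : of F G (a * b) - 1 = of F G a * (of F G b - 1) + (of F G a - 1) := by
      rw [mul_sub, ← map_mul, mul_one]
      abel
    show of F G (a * b) - 1 ∈ KS F S n
    rw [e]
    exact add_mem (KS_mul_left _ hb) ha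
  inv_mem' := fun {a} ha => by
    have e : of F G a⁻¹ - 1 = -(of F G a⁻¹ * (of F G a - 1)) := by
      rw [mul_sub, ← map_mul, inv_mul_cancel, map_one, mul_one]
      abel
    show of F G a⁻¹ - 1 ∈ KS F S n
    rw [e]
    exact neg_mem (KS_mul_left _ ha)

variable {F S}

theorem mem_Rn {n : ℕ} {g : G} : g ∈ Rn F S n ↔ of F G g - 1 ∈ KS F S n := Iff.rfl

instance Rn_normal (n : ℕ) : (Rn F S n).Normal where
  conj_mem := fun a ha g => by
    rw [mem_Rn] at ha ⊢
    have e : of F G (g * a * g⁻¹) - 1 = of F G g * (of F G a - 1) * of F G g⁻¹ := by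
      rw [mul_sub, sub_mul, ← map_mul, ← map_mul, mul_one, ← map_mul, mul_inv_cancel, map_one]
    rw [e]
    exact KS_mul_right _ (KS_mul_left _ ha)

theorem Rn_anti : Antitone (Rn F S) := fun _ _ h _ hg => KS_anti h hg

theorem Rn_of_mem {n : ℕ} {g : G} (h : of F G g - 1 ∈ S) : g ∈ Rn F S n :=
  mem_sup_left (subset_JS h)

/-- congruence of group elements -/
theorem of_sub_of_mem {n : ℕ} {g h : G} (hgh : g⁻¹ * h ∈ Rn F S n) : of F G h - of F G g ∈ KS F S n := by
  have := KS_mul_left (of F G g) (mem_Rn.1 hgh)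
  rwa [mul_sub, ← map_mul, mul_one, mul_inv_cancel_left] at this

/-- stability under an automorphism which maps `S` to `J(S) + I^n` -/
theorem amap_KS {φ : G →* G} {n : ℕ} (h : ∀ s ∈ S, amap F φ s ∈ KS F S n) {x : MonoidAlgebra F G}
    (hx : x ∈ KS F S n) : amap F φ x ∈ KS F S n := by
  have hle : KS F S n ≤ (KS F S n).comap (amap F φ).toLinearMap := by
    refine sup_le (span_le.2 ?_) fun x hx => ?_
    · rintro _ ⟨a, s, hs, b, rfl⟩
      show amap F φ (a * s * b) ∈ KS F S n
      rw [map_mul, map_mul]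
      exact KS_mul_right _ (KS_mul_left _ (h s hs))
    · exact mem_sup_right (map_augF φ hx)
  exact hle hx

theorem Rn_map {φ : G →* G} {n : ℕ} (h : ∀ s ∈ S, amap F φ s ∈ KS F S n) {g : G} (hg : g ∈ Rn F S n) :
    φ g ∈ Rn F S n := by
  have := amap_KS h (mem_Rn.1 hg)
  rwa [map_sub, amap_of, map_one] at this

/-- prime powers -/
theorem pow_mem_Rn (l : ℕ) [Fact l.Prime] [CharP F l] {n a : ℕ} (h : n ≤ l ^ a) (g : G) : g ^ l ^ a ∈ Rn F S n := by
  rw [mem_Rn, of_pow_sub_one l]
  refine mem_sup_right (augF_anti h ?_)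
  have : ∀ m, (of F G g - 1) ^ m ∈ augF F G m := by
    intro m
    induction m with
    | zero => rw [augF_zero]; trivial
    | succ m ih => rw [pow_succ]; exact augF_mul ih (augF_one_sub g)
  exact this _

/-- the dimension is at most the index -/
theorem finrank_le_index {n : ℕ} {N : Subgroup G} (hN : N ≤ Rn F S n) [Finite (G ⧸ N)] :
    Module.finrank F (MonoidAlgebra F G ⧸ KS F S n) ≤ Nat.card (G ⧸ N) := by
  classical
  cases nonempty_fintype (G ⧸ N)
  let q : G ⧸ N → (MonoidAlgebra F G ⧸ KS F S n) := fun g => (KS F S n).mkQ (of F _ g.out)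
  have hspan : (⊤ : Submodule F (MonoidAlgebra F G ⧸ KS F S n)) ≤ span F (Set.range q) := by
    intro x _
    obtain ⟨r, rfl⟩ := (KS F S n).mkQ_surjective x
    induction r using MonoidAlgebra.induction_on with
    | of g =>
      have h1 : (KS F S n).mkQ (of F _ g) = q (QuotientGroup.mk g) := by
        simp only [q, mkQ_apply]
        rw [Submodule.Quotient.eq]
        have h2 : ((QuotientGroup.mk g : G ⧸ N).out)⁻¹ * g ∈ N := by
          rw [← QuotientGroup.eq]
          exact QuotientGroup.out_eq' _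
        exact of_sub_of_mem (hN h2)
      rw [h1]
      exact subset_span ⟨_, rfl⟩
    | add x y hx hy => rw [map_add]; exact add_mem (hx trivial) (hy trivial)
    | smul c x hx => rw [map_smul]; exact smul_mem _ _ (hx trivial)
  have h5 : Module.finrank F (MonoidAlgebra F G ⧸ KS F S n) ≤ Fintype.card (G ⧸ N) := by
    have h6 := finrank_range_le_card (R := F) q
    have h7 : span F (Set.range q) = ⊤ := top_le_iff.mp hspan
    rw [Set.finrank, h7, finrank_top] at h6
    exact h6
  rw [Nat.card_eq_fintype_card]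
  exact h5

/-- the index is finite -/
theorem finite_quot_Rn [Finite F] {n : ℕ} (hfd : FiniteDimensional F (MonoidAlgebra F G ⧸ augF F G n)) :
    Finite (G ⧸ Rn F S n) := by
  have hfin : FiniteDimensional F (MonoidAlgebra F G ⧸ KS F S n) := by
    refine Module.Finite.of_surjective (mapQ (augF F G n) (KS F S n) LinearMap.id
      (by rw [comap_id]; exact le_sup_right)) fun y => ?_
    obtain ⟨r, rfl⟩ := (KS F S n).mkQ_surjective y
    exact ⟨(augF F G n).mkQ r, rfl⟩
  have : Finite (MonoidAlgebra F G ⧸ KS F S n) := Module.finite_of_finite F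
  let f : G ⧸ Rn F S n → (MonoidAlgebra F G ⧸ KS F S n) :=
    Quotient.lift (fun g => (KS F S n).mkQ (of F G g)) (by
      intro a b hab
      have h : a⁻¹ * b ∈ Rn F S n := QuotientGroup.leftRel_apply.1 hab
      simp only [mkQ_apply]
      refine (Submodule.Quotient.eq _).2 ?_
      rw [← neg_mem_iff, neg_sub]
      exact of_sub_of_mem h)
  refine Finite.of_injective f ?_
  intro x y hxy
  induction x using QuotientGroup.induction_on with
  | H a =>
  induction y using QuotientGroup.induction_on with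
  | H b =>
  have h1 : of F G a - of F G b ∈ KS F S n := (Submodule.Quotient.eq _).1 hxy
  refine QuotientGroup.eq.2 ?_
  rw [mem_Rn]
  have h2 := KS_mul_left (of F G a⁻¹) h1
  rw [mul_sub, ← map_mul, ← map_mul, inv_mul_cancel, map_one] at h2
  rw [← neg_mem_iff, neg_sub]
  exact h2

theorem index_Rn_ne_zero [Finite F] {n : ℕ} (hfd : FiniteDimensional F (MonoidAlgebra F G ⧸ augF F G n)) :
    (Rn F S n).index ≠ 0 := by
  have := finite_quot_Rn (S := S) hfd
  rw [Subgroup.index]
  exact Nat.card_pos.ne'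

theorem finrank_le_index' [Finite F] {n : ℕ} (hfd : FiniteDimensional F (MonoidAlgebra F G ⧸ augF F G n)) :
    Module.finrank F (MonoidAlgebra F G ⧸ KS F S n) ≤ (Rn F S n).index := by
  have := finite_quot_Rn (S := S) hfd
  exact finrank_le_index le_rfl

end basic

section action

variable (F : Type*) [Field F] {Gam V : Type*} [Group Gam] [Group V] (act : V →* MulAut Gam) (dl : Gam)

/-- the subgroup of elements `w` with `w.dl ∈ Vn.dl` : it contains `Vn` and the stabiliser of `dl` -/
noncomputable def Vp (n : ℕ) : Subgroup V where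
  carrier := {w | ∃ v ∈ Vn F act n, act w dl = act v dl}
  one_mem' := ⟨1, one_mem _, rfl⟩
  mul_mem' := by
    rintro a b ⟨v, hv, h1⟩ ⟨w, hw, h2⟩
    refine ⟨a * w * a⁻¹ * v, mul_mem ((Vn_normal F act n).conj_mem w hw a) hv, ?_⟩
    have e : act (a * w * a⁻¹) (act a dl) = act (a * w) dl := by
      rw [← MulAut.mul_apply, ← map_mul, inv_mul_cancel_right]
    have e2 : act (a * w * a⁻¹ * v) dl = act (a * w * a⁻¹) (act v dl) := by rw [map_mul act (a * w * a⁻¹) v]; rfl
    rw [map_mul, MulAut.mul_apply, h2, e2, ← h1, e, map_mul, MulAut.mul_apply]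
  inv_mem' := by
    rintro a ⟨v, hv, h1⟩
    refine ⟨a⁻¹ * v⁻¹ * a, by simpa using (Vn_normal F act n).conj_mem v⁻¹ (inv_mem hv) a⁻¹, ?_⟩
    have h2 : act (v⁻¹ * a) dl = dl := by
      rw [map_mul, MulAut.mul_apply, h1, ← MulAut.mul_apply, ← map_mul, inv_mul_cancel, map_one]
      rfl
    rw [mul_assoc, map_mul, MulAut.mul_apply, h2]

variable {F act dl}

theorem mem_Vp {n : ℕ} {w : V} : w ∈ Vp F act dl n ↔ ∃ v ∈ Vn F act n, act w dl = act v dl := Iff.rfl

theorem Vn_le_Vp (n : ℕ) : Vn F act n ≤ Vp F act dl n := fun v hv => ⟨v, hv, rfl⟩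

theorem stab_mem_Vp {n : ℕ} {w : V} (h : act w dl = dl) : w ∈ Vp F act dl n :=
  ⟨1, one_mem _, by rw [map_one, h]; rfl⟩

/-- `Vp` maps the relators to relators -/
theorem Vp_Rel {n : ℕ} {K : Finset Gam} {q : Gam → ℕ} {w : V} (hw : w ∈ Vp F act dl n) {x : MonoidAlgebra F Gam}
    (hx : x ∈ Rel F act dl n K q) : vact F act w x ∈ Rel F act dl n K q := by
  obtain ⟨v₀, hv₀, h0⟩ := hw
  rcases hx with ⟨v, hv, rfl⟩ | ⟨g, hg, v, rfl⟩
  · refine Or.inl ⟨w * v * w⁻¹ * v₀, mul_mem ((Vn_normal F act n).conj_mem v hv w) hv₀, ?_⟩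
    rw [map_sub, vact_of, map_one]
    congr 2
    have e : act (w * v * w⁻¹) (act w dl) = act (w * v) dl := by
      rw [← MulAut.mul_apply, ← map_mul, inv_mul_cancel_right]
    have e2 : act (w * v * w⁻¹ * v₀) dl = act (w * v * w⁻¹) (act v₀ dl) := by rw [map_mul act (w * v * w⁻¹) v₀]; rfl
    rw [e2, ← h0, e, map_mul, MulAut.mul_apply]
  · refine Or.inr ⟨g, hg, w * v, ?_⟩
    rw [map_sub, vact_of, map_one, map_mul, MulAut.mul_apply]

/-- `R_N` is stable under `Vp` -/
theorem Rn_stable {n : ℕ} {K : Finset Gam} {q : Gam → ℕ} {N : ℕ} {w : V} (hw : w ∈ Vp F act dl n) {g : Gam}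
    (hg : g ∈ Rn F (Rel F act dl n K q) N) : act w g ∈ Rn F (Rel F act dl n K q) N :=
  Rn_map (φ := (act w).toMonoidHom) (fun _ hs => mem_sup_left (subset_JS (Vp_Rel hw hs))) hg

theorem Rn_stable_iff {n : ℕ} {K : Finset Gam} {q : Gam → ℕ} {N : ℕ} {w : V} (hw : w ∈ Vp F act dl n) {g : Gam} :
    act w g ∈ Rn F (Rel F act dl n K q) N ↔ g ∈ Rn F (Rel F act dl n K q) N := by
  refine ⟨fun h => ?_, Rn_stable hw⟩
  have := Rn_stable (inv_mem hw) h
  rwa [← MulAut.mul_apply, ← map_mul, inv_mul_cancel, map_one] at this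

/-- the killed elements -/
theorem dl_mem_Rn {n : ℕ} {K : Finset Gam} {q : Gam → ℕ} {N : ℕ} {w : V} (hw : w ∈ Vp F act dl n) :
    act w dl ∈ Rn F (Rel F act dl n K q) N := by
  obtain ⟨v, hv, h⟩ := hw
  rw [h]
  exact Rn_of_mem (Or.inl ⟨v, hv, rfl⟩)

theorem pow_mem_Rn' {n : ℕ} {K : Finset Gam} {q : Gam → ℕ} {N : ℕ} (v : V) {g : Gam} (hg : g ∈ K) :
    (act v g) ^ q g ∈ Rn F (Rel F act dl n K q) N := by
  rw [← map_pow]
  exact Rn_of_mem (Or.inr ⟨g, hg, v, rfl⟩)

end action

section trivial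

variable {Gam V : Type*} [Group Gam] [Group V] (act : V →* MulAut Gam)

/-- elements of `V` which act trivially on `Γ / R`, `R` normal and stable under `V'` -/
def Triv (V' : Subgroup V) (R : Subgroup Gam) [R.Normal] (hR : ∀ w ∈ V', ∀ g ∈ R, act w g ∈ R) : Subgroup V where
  carrier := {w | w ∈ V' ∧ ∀ g, act w g * g⁻¹ ∈ R}
  one_mem' := ⟨one_mem _, fun g => by rw [map_one]; simp [one_mem]⟩
  mul_mem' := by
    rintro a b ⟨ha, ha'⟩ ⟨hb, hb'⟩
    refine ⟨mul_mem ha hb, fun g => ?_⟩
    have e : act (a * b) g * g⁻¹ = (act a (act b g * g⁻¹)) * (act a g * g⁻¹) := by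
      rw [map_mul act, MulAut.mul_apply, map_mul (act a), map_inv]
      group
    rw [e]
    exact mul_mem (hR a ha _ (hb' g)) (ha' g)
  inv_mem' := by
    rintro a ⟨ha, ha'⟩
    refine ⟨inv_mem ha, fun g => ?_⟩
    have h1 := hR a⁻¹ (inv_mem ha) _ (inv_mem (ha' g))
    have e2 : act a⁻¹ (act a g⁻¹) = g⁻¹ := by
      rw [← MulAut.mul_apply, ← map_mul, inv_mul_cancel, map_one]
      rfl
    have e : act a⁻¹ (act a g * g⁻¹)⁻¹ = act a⁻¹ g * g⁻¹ := by
      rw [mul_inv_rev, inv_inv, map_mul, ← map_inv (act a), e2]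
    rwa [e] at h1

variable {act}

theorem mem_Triv {V' : Subgroup V} {R : Subgroup Gam} [R.Normal] {hR : ∀ w ∈ V', ∀ g ∈ R, act w g ∈ R} {w : V} :
    w ∈ Triv act V' R hR ↔ w ∈ V' ∧ ∀ g, act w g * g⁻¹ ∈ R := Iff.rfl

/-- the action of `V'` on `Γ / R` -/
def permHom (V' : Subgroup V) (R : Subgroup Gam) (hR : ∀ w ∈ V', ∀ g ∈ R, act w g ∈ R) :
    V' →* Equiv.Perm (Gam ⧸ R) where
  toFun w :=
    { toFun := Quotient.map' (act w) (by
        intro a b hab
        rw [QuotientGroup.leftRel_apply] at hab ⊢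
        have := hR w w.2 _ hab
        rwa [map_mul, map_inv] at this)
      invFun := Quotient.map' (act (w : V)⁻¹) (by
        intro a b hab
        rw [QuotientGroup.leftRel_apply] at hab ⊢
        have := hR (w : V)⁻¹ (inv_mem w.2) _ hab
        rwa [map_mul, map_inv (act (w : V)⁻¹)] at this)
      left_inv := by
        intro x
        induction x using QuotientGroup.induction_on with
        | H g =>
        show QuotientGroup.mk (act (w : V)⁻¹ (act w g)) = QuotientGroup.mk g
        rw [← MulAut.mul_apply, ← map_mul, inv_mul_cancel, map_one]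
        rfl
      right_inv := by
        intro x
        induction x using QuotientGroup.induction_on with
        | H g =>
        show QuotientGroup.mk (act w (act (w : V)⁻¹ g)) = QuotientGroup.mk g
        rw [← MulAut.mul_apply, ← map_mul, mul_inv_cancel, map_one]
        rfl }
  map_one' := by
    ext x
    induction x using QuotientGroup.induction_on with
    | H g =>
    show QuotientGroup.mk (act ((1 : V') : V) g) = QuotientGroup.mk g
    rw [Subgroup.coe_one, map_one]
    rfl
  map_mul' a b := by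
    ext x
    induction x using QuotientGroup.induction_on with
    | H g =>
    show QuotientGroup.mk (act ((a * b : V') : V) g) = QuotientGroup.mk (act a (act b g))
    rw [Subgroup.coe_mul, map_mul]
    rfl

/-- finite index -/
theorem Triv_index_ne_zero {V' : Subgroup V} {R : Subgroup Gam} [R.Normal] {hR : ∀ w ∈ V', ∀ g ∈ R, act w g ∈ R}
    (hV : V'.index ≠ 0) [Finite (Gam ⧸ R)] : (Triv act V' R hR).index ≠ 0 := by
  have hle : Triv act V' R hR ≤ V' := fun w hw => hw.1
  have h1 : (Triv act V' R hR).relIndex V' ≠ 0 := by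
    have hk : (permHom (act := act) V' R hR).ker ≤ (Triv act V' R hR).subgroupOf V' := by
      intro w hw
      rw [Subgroup.mem_subgroupOf]
      refine ⟨w.2, fun g => ?_⟩
      have h2 : permHom (act := act) V' R hR w = 1 := hw
      have h3 : (QuotientGroup.mk (act w g) : Gam ⧸ R) = QuotientGroup.mk g := by
        have := Equiv.ext_iff.1 h2 (QuotientGroup.mk g)
        exact this
      have h4 := QuotientGroup.eq.1 h3
      have h5 := inv_mem ((inferInstance : R.Normal).conj_mem _ h4 (act w g))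
      have e : (act w g * ((act w g)⁻¹ * g) * (act w g)⁻¹)⁻¹ = act w g * g⁻¹ := by group
      rwa [e] at h5
    have h6 : (permHom (act := act) V' R hR).ker.index ≠ 0 := by
      rw [Subgroup.index_ker]
      exact Nat.card_pos.ne'
    intro h0
    have h7 : ((Triv act V' R hR).subgroupOf V').index = 0 := h0
    have h8 := Subgroup.index_dvd_of_le hk
    rw [h7, zero_dvd_iff] at h8
    exact h6 h8
  rw [← Subgroup.relIndex_mul_index hle]
  exact mul_ne_zero h1 hV

end trivial

end Vale.Agent.P300.H959
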