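import Vale.Agent.P300.H959.RN
import Vale.Agent.P300.H959.Alg

/-! # P300 / H959 : `Vn` has finite index -/

namespace Vale.Agent.P300.H959

open Vale.Agent.P300.GS Submodule MonoidAlgebra

variable {F : Type*} [Field F] {Gam V : Type*} [Group Gam] [Group V] (act : V →* MulAut Gam)

theorem JS_empty : JS F (∅ : Set (MonoidAlgebra F Gam)) = ⊥ := by
  rw [eq_bot_iff]
  refine span_le.2 ?_
  rintro _ ⟨a, s, hs, -⟩
  exact hs.elim

/-- the dimension subgroups -/
theorem mem_Rn_empty {n : ℕ} {g : Gam} : g ∈ Rn F (∅ : Set (MonoidAlgebra F Gam)) n ↔ of F Gam g - 1 ∈ augF F Gam n := by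
  rw [mem_Rn, KS, JS_empty, bot_sup_eq]

theorem Rn_empty_stable (n : ℕ) (w : V) (g : Gam) (hg : g ∈ Rn F (∅ : Set (MonoidAlgebra F Gam)) n) :
    act w g ∈ Rn F (∅ : Set (MonoidAlgebra F Gam)) n :=
  Rn_map (φ := (act w).toMonoidHom) (fun _ hs => hs.elim) hg

/-- an element of `V` which acts trivially on `Γ / D_{n+1}` is in `Vn` -/
theorem Triv_le_Vn (n : ℕ) : Triv act ⊤ (Rn F (∅ : Set (MonoidAlgebra F Gam)) (n + 1))
    (fun w _ g hg => Rn_empty_stable act (n + 1) w g hg) ≤ Vn F act n := by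
  rintro w ⟨-, hw⟩ a -
  induction a using MonoidAlgebra.induction_on with
  | of g =>
    rw [vact_of]
    have h := mem_Rn_empty.1 (hw g)
    have e : of F Gam (act w g) - of F Gam g = (of F Gam (act w g * g⁻¹) - 1) * of F Gam g := by
      rw [sub_mul, ← map_mul, inv_mul_cancel_right, one_mul]
    rw [e]
    exact augF_mul_right _ h
  | add x y hx hy =>
    rw [map_add, add_sub_add_comm]
    exact add_mem hx hy
  | smul c x hx =>
    rw [map_smul, ← smul_sub]
    exact Submodule.smul_mem _ _ hx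

/-- `Vn` has finite index -/
theorem Vn_index_ne_zero [Finite F] (n : ℕ) (hfd : FiniteDimensional F (MonoidAlgebra F Gam ⧸ augF F Gam (n + 1))) :
    (Vn F act n).index ≠ 0 := by
  have := finite_quot_Rn (S := (∅ : Set (MonoidAlgebra F Gam))) hfd
  have h := Triv_index_ne_zero (act := act) (V' := ⊤) (R := Rn F (∅ : Set (MonoidAlgebra F Gam)) (n + 1))
    (hR := fun w _ g hg => Rn_empty_stable act (n + 1) w g hg) (by rw [Subgroup.index_top]; exact one_ne_zero)
  have h2 := Subgroup.index_dvd_of_le (Triv_le_Vn (F := F) act n)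
  intro h0
  rw [h0, zero_dvd_iff] at h2
  exact h h2

theorem Vn_finiteIndex [Finite F] (n : ℕ) (hfd : FiniteDimensional F (MonoidAlgebra F Gam ⧸ augF F Gam (n + 1))) :
    (Vn F act n).FiniteIndex := ⟨Vn_index_ne_zero act n hfd⟩

/-- the case of the monodromy of `M_{0,5}` -/
instance Vn_act_finiteIndex (l : ℕ) [Fact l.Prime] (n : ℕ) : (Vn (ZMod l) Vale.Agent.P300.H959.act n).FiniteIndex :=
  Vn_finiteIndex _ n (finite_quot_freeGroup (ZMod l) (Fin 3) (n + 1))

end Vale.Agent.P300.H959
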